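import Mathlib

namespace Vale.Agent.P012

open Finset

/-- Residue of `f` modulo `p` forbidden by the sieve for `W`. -/
def hit (W p f : ℕ) : Prop := f % p = 0 ∨ f % p = W % p

instance (W p f : ℕ) : Decidable (hit W p f) := by unfold hit; infer_instance

lemma hit_mod (W p f q : ℕ) (h : p ∣ q) : hit W p (f % q) ↔ hit W p f := by
  simp [hit, Nat.mod_mod_of_dvd _ h]

/-- The number of forbidden classes modulo `p`. -/
def nu (W p : ℕ) : ℕ := ((range p).filter (hit W p)).card

lemma nu_le_two (W p : ℕ) : nu W p ≤ 2 := by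
  refine (Finset.card_le_card (t := {0, W % p}) ?_).trans Finset.card_le_two
  intro f hf
  simp only [Finset.mem_filter, Finset.mem_range, hit] at hf
  obtain ⟨h1, h2⟩ := hf
  rw [Nat.mod_eq_of_lt h1] at h2
  simpa using h2

lemma nu_two (W : ℕ) (hW : Even W) : nu W 2 = 1 := by
  have : W % 2 = 0 := Nat.even_iff.1 hW
  rw [nu, show (range 2).filter (hit W 2) = {0} by
    ext f
    simp only [Finset.mem_filter, Finset.mem_range, hit, this, or_self, Finset.mem_singleton]
    omega]
  rfl

lemma crt_card {m n : ℕ} (hco : Nat.Coprime m n) (hm : 0 < m) (hn : 0 < n) (A B : ℕ → Prop)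
    [DecidablePred A] [DecidablePred B] :
    ((range (m * n)).filter fun x => A (x % m) ∧ B (x % n)).card
      = ((range m).filter A).card * ((range n).filter B).card := by
  rw [← Finset.card_product]
  refine Finset.card_bij' (fun x _ => (x % m, x % n))
    (fun p _ => (Nat.chineseRemainder hco p.1 p.2).1) ?_ ?_ ?_ ?_
  · intro x hx
    simp only [Finset.mem_filter, Finset.mem_range] at hx
    simp only [Finset.mem_product, Finset.mem_filter, Finset.mem_range]
    exact ⟨⟨Nat.mod_lt _ hm, hx.2.1⟩, Nat.mod_lt _ hn, hx.2.2⟩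
  · rintro ⟨a, b⟩ hp
    simp only [Finset.mem_product, Finset.mem_filter, Finset.mem_range] at hp
    obtain ⟨⟨ha, hA⟩, hb, hB⟩ := hp
    have h1 : (Nat.chineseRemainder hco a b).1 % m = a :=
      Eq.trans (Nat.chineseRemainder hco a b).2.1 (Nat.mod_eq_of_lt ha)
    have h2 : (Nat.chineseRemainder hco a b).1 % n = b :=
      Eq.trans (Nat.chineseRemainder hco a b).2.2 (Nat.mod_eq_of_lt hb)
    simp only [Finset.mem_filter, Finset.mem_range]
    exact ⟨Nat.chineseRemainder_lt_mul hco _ _ hm.ne' hn.ne', by rwa [h1], by rwa [h2]⟩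
  · intro x hx
    simp only [Finset.mem_filter, Finset.mem_range] at hx
    have := Nat.chineseRemainder_modEq_unique hco (a := x % m) (b := x % n) (z := x)
      (Nat.mod_modEq x m).symm (Nat.mod_modEq x n).symm
    exact ((Nat.ModEq.eq_of_lt_of_lt this hx.1
      (Nat.chineseRemainder_lt_mul hco _ _ hm.ne' hn.ne'))).symm
  · rintro ⟨a, b⟩ hp
    simp only [Finset.mem_product, Finset.mem_filter, Finset.mem_range] at hp
    obtain ⟨⟨ha, -⟩, hb, -⟩ := hp
    exact Prod.ext (Eq.trans (Nat.chineseRemainder hco a b).2.1 (Nat.mod_eq_of_lt ha))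
      (Eq.trans (Nat.chineseRemainder hco a b).2.2 (Nat.mod_eq_of_lt hb))

/-- `f` is hit at every prime of `T`. -/
def allHit (W : ℕ) (T : Finset ℕ) (f : ℕ) : Prop := ∀ p ∈ T, hit W p f

instance (W : ℕ) (T : Finset ℕ) (f : ℕ) : Decidable (allHit W T f) := by
  unfold allHit; infer_instance

lemma allHit_mod (W : ℕ) (T : Finset ℕ) (f q : ℕ) (h : ∏ p ∈ T, p ∣ q) :
    allHit W T (f % q) ↔ allHit W T f := by
  refine forall₂_congr fun p hp => ?_
  exact hit_mod W p f q ((Finset.dvd_prod_of_mem id hp).trans h)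

lemma count_full (W : ℕ) (T : Finset ℕ) (hT : ∀ p ∈ T, p.Prime) :
    ((range (∏ p ∈ T, p)).filter (allHit W T)).card = ∏ p ∈ T, nu W p := by
  induction T using Finset.induction_on with
  | empty =>
    rw [Finset.prod_empty, Finset.prod_empty, Finset.filter_true_of_mem]
    · simp
    · intro f _ p hp; simp at hp
  | insert a T ha ih =>
    have hp : a.Prime := hT a (Finset.mem_insert_self _ _)
    have hT' : ∀ p ∈ T, p.Prime := fun p hp => hT p (Finset.mem_insert_of_mem hp)
    rw [Finset.prod_insert ha, Finset.prod_insert ha, ← ih hT']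
    have hco : Nat.Coprime a (∏ p ∈ T, p) := Nat.Coprime.prod_right fun p hp' =>
      (Nat.coprime_primes hp (hT' p hp')).2 fun e => ha (e ▸ hp')
    rw [nu, ← crt_card hco hp.pos (Finset.prod_pos fun p h => (hT' p h).pos) (hit W a)
      (allHit W T)]
    congr 1
    refine Finset.filter_congr fun f _ => ?_
    rw [hit_mod W a f a (dvd_refl _), allHit_mod W T f _ (dvd_refl _)]
    simp [allHit]

lemma count_approx (W : ℕ) (T : Finset ℕ) (hT : ∀ p ∈ T, p.Prime) :
    |(((range W).filter (allHit W T)).card : ℝ) - W * ∏ p ∈ T, ((nu W p : ℝ) / p)|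
      ≤ ∏ p ∈ T, (nu W p : ℝ) := by
  set M := ∏ p ∈ T, p with hM
  have hM0 : 0 < M := Finset.prod_pos fun p h => (hT p h).pos
  have hper : Function.Periodic (allHit W T) M := by
    intro f
    rw [eq_iff_iff, ← allHit_mod W T (f + M) M (dvd_refl _), Nat.add_mod_right,
      allHit_mod W T f M (dvd_refl _)]
  have hcnt : Nat.count (allHit W T) M = ∏ p ∈ T, nu W p := by
    rw [Nat.count_eq_card_filter_range, hM, count_full W T hT]
  -- split `W` into full periods and a remainder
  have hsplit : ∀ q r, Nat.count (allHit W T) (q * M + r)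
      = q * (∏ p ∈ T, nu W p) + Nat.count (allHit W T) r := by
    intro q
    induction q with
    | zero => simp
    | succ q ih =>
      intro r
      rw [show (q + 1) * M + r = q * M + (M + r) by ring, ih, Nat.count_add, hcnt]
      have : (fun k => allHit W T (M + k)) = allHit W T := by
        funext k; rw [add_comm]; exact hper k
      simp only [this]
      ring
  have hW := hsplit (W / M) (W % M)
  rw [mul_comm (W / M) M, Nat.div_add_mod] at hW
  rw [← Nat.count_eq_card_filter_range, hW]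
  have hle : Nat.count (allHit W T) (W % M) ≤ ∏ p ∈ T, nu W p :=
    (Nat.count_monotone _ (Nat.mod_lt _ hM0).le).trans hcnt.le
  rw [Finset.prod_div_distrib, ← Nat.cast_prod, ← Nat.cast_prod, ← hM]
  have e : (W : ℝ) = ((W / M : ℕ) : ℝ) * M + ((W % M : ℕ) : ℝ) := by
    exact_mod_cast (Nat.div_add_mod' W M).symm
  have hr : ((W % M : ℕ) : ℝ) ≤ M := by exact_mod_cast (Nat.mod_lt _ hM0).le
  have hMr : (0 : ℝ) < M := by exact_mod_cast hM0
  set V : ℕ := ∏ p ∈ T, nu W p
  set c := Nat.count (allHit W T) (W % M)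
  have e2 : ((W / M * V + c : ℕ) : ℝ) - (W : ℝ) * ((V : ℝ) / (M : ℝ))
      = (c : ℝ) - ((W % M : ℕ) : ℝ) / M * (V : ℝ) := by
    rw [e]; push_cast; field_simp; ring
  rw [e2, abs_le]
  have h1 : ((W % M : ℕ) : ℝ) / M * (V : ℝ) ≤ 1 * (V : ℝ) := by
    gcongr
    rw [div_le_one hMr]; exact hr
  have h2 : 0 ≤ ((W % M : ℕ) : ℝ) / M * (V : ℝ) := by positivity
  have h3 : (c : ℝ) ≤ V := by exact_mod_cast hle
  constructor
  · linarith [(Nat.cast_nonneg c : (0:ℝ) ≤ c)]
  · linarith

lemma bonferroni (H : Finset ℕ) (i : ℕ) (hi : Odd i) :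
    ∑ T ∈ H.powerset.filter (fun T => T.card ≤ i), (-1 : ℝ) ^ T.card
      ≤ if H = ∅ then 1 else 0 := by
  have h1 : ∑ T ∈ H.powerset.filter (fun T => T.card ≤ i), (-1 : ℝ) ^ T.card
      = ((∑ j ∈ range (i + 1), ((-1) ^ j * (H.card.choose j) : ℤ) : ℤ) : ℝ) := by
    rw [← Finset.sum_fiberwise_of_maps_to (g := Finset.card) (t := range (i + 1))
      (fun T hT => by simp only [Finset.mem_filter] at hT; simp; omega)]
    push_cast
    refine Finset.sum_congr rfl fun j hj => ?_
    rw [Finset.mem_range] at hj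
    have : (H.powerset.filter fun T => T.card ≤ i).filter (fun T => T.card = j)
        = H.powersetCard j := by
      ext T
      simp only [Finset.mem_filter, Finset.mem_powerset, Finset.mem_powersetCard]
      constructor
      · rintro ⟨⟨a, -⟩, b⟩; exact ⟨a, b⟩
      · rintro ⟨a, b⟩; exact ⟨⟨a, by omega⟩, b⟩
    rw [this, Finset.sum_congr rfl (g := fun _ => (-1 : ℝ) ^ j) fun T hT => by
      rw [(Finset.mem_powersetCard.1 hT).2], Finset.sum_const, Finset.card_powersetCard,
      nsmul_eq_mul]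
    ring
  rw [h1]
  split_ifs with h
  · subst h
    rw [Finset.card_empty, Finset.sum_eq_single 0]
    · simp
    · intro j _ hj; simp [Nat.choose_eq_zero_of_lt (Nat.pos_of_ne_zero hj)]
    · simp
  · obtain ⟨n, hn⟩ := Nat.exists_eq_succ_of_ne_zero (Finset.card_ne_zero.2 (nonempty_iff_ne_empty.2 h))
    rw [hn, Nat.succ_eq_add_one, Int.alternating_sum_range_choose_eq_choose, hi.neg_one_pow]
    push_cast
    simp

lemma geom_small (n i : ℕ) : ∑ j ∈ range (i + 1), (2 * n) ^ j ≤ (2 * n + 1) ^ i := by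
  induction i with
  | zero => simp
  | succ i ih =>
    rw [Finset.sum_range_succ' (fun j => (2 * n) ^ j) (i + 1)]
    simp only [pow_succ' (2 * n)]
    rw [← Finset.mul_sum, pow_succ' (2 * n + 1)]
    have : 1 ≤ (2 * n + 1) ^ i := Nat.one_le_pow _ _ (by omega)
    simp only [pow_zero]
    nlinarith [Nat.mul_le_mul_left (2 * n) ih]

/-- The sieve lower bound. -/
lemma sieve (W : ℕ) (P : Finset ℕ) (hP : ∀ p ∈ P, p.Prime) (i : ℕ) (hi : Odd i) :
    (W : ℝ) * (∏ p ∈ P, (1 - (nu W p : ℝ) / p) -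
        (1 / 2) ^ i * ∏ p ∈ P, (1 + 2 * ((nu W p : ℝ) / p))) - ((2 * P.card + 1) ^ i : ℕ)
      ≤ (((range W).filter fun f => ∀ p ∈ P, ¬ hit W p f).card : ℝ) := by
  set x : ℕ → ℝ := fun p => (nu W p : ℝ) / p with hx
  set small := P.powerset.filter (fun T => T.card ≤ i) with hsmall
  have hT : ∀ T ∈ P.powerset, ∀ p ∈ T, p.Prime :=
    fun T h p hp => hP p (Finset.mem_powerset.1 h hp)
  -- Bonferroni
  have h1 : ∑ T ∈ small, (-1 : ℝ) ^ T.card * ((range W).filter (allHit W T)).card
      ≤ (((range W).filter fun f => ∀ p ∈ P, ¬ hit W p f).card : ℝ) := by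
    simp only [Finset.card_filter, Nat.cast_sum, Finset.mul_sum]
    rw [Finset.sum_comm]
    refine Finset.sum_le_sum fun f _ => ?_
    have hb := bonferroni (P.filter fun p => hit W p f) i hi
    have e : (P.filter fun p => hit W p f).powerset.filter (fun T => T.card ≤ i)
        = small.filter (fun T => allHit W T f) := by
      ext T
      simp only [hsmall, Finset.mem_filter, Finset.mem_powerset, Finset.subset_iff, allHit]
      constructor
      · rintro ⟨a, b⟩; exact ⟨⟨fun p hp => (a hp).1, b⟩, fun p hp => (a hp).2⟩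
      · rintro ⟨⟨a, b⟩, c⟩; exact ⟨fun p hp => ⟨a hp, c p hp⟩, b⟩
    rw [e, Finset.sum_filter] at hb
    refine le_trans (le_of_eq (Finset.sum_congr rfl fun T _ => ?_)) (hb.trans (le_of_eq ?_))
    · split_ifs <;> simp
    · simp [Finset.filter_eq_empty_iff]
  -- replace the counts by their main terms
  have h2 : (W : ℝ) * ∑ T ∈ small, (-1 : ℝ) ^ T.card * ∏ p ∈ T, x p - ((2 * P.card + 1) ^ i : ℕ)
      ≤ ∑ T ∈ small, (-1 : ℝ) ^ T.card * ((range W).filter (allHit W T)).card := by
    have herr : ∑ T ∈ small, ∏ p ∈ T, (nu W p : ℝ) ≤ ((2 * P.card + 1) ^ i : ℕ) := by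
      have a1 : ∑ T ∈ small, ∏ p ∈ T, (nu W p : ℝ) ≤ ∑ T ∈ small, ((2 ^ T.card : ℕ) : ℝ) := by
        refine Finset.sum_le_sum fun T _ => ?_
        rw [← Nat.cast_prod]
        exact_mod_cast Finset.prod_le_pow_card _ _ _ fun p _ => nu_le_two W p
      have a2 : ∑ T ∈ small, 2 ^ T.card ≤ (2 * P.card + 1) ^ i := by
        refine le_trans ?_ (geom_small P.card i)
        rw [← Finset.sum_fiberwise_of_maps_to (g := Finset.card) (t := range (i + 1))
          (fun T hT => by simp only [hsmall, Finset.mem_filter] at hT; simp; omega)]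
        refine Finset.sum_le_sum fun j hj => ?_
        rw [Finset.sum_congr rfl (g := fun _ => 2 ^ j) fun T hT => by
          simp only [Finset.mem_filter] at hT; rw [hT.2], Finset.sum_const, smul_eq_mul, mul_pow,
          mul_comm]
        refine Nat.mul_le_mul_left _ ?_
        refine le_trans (Finset.card_le_card (t := P.powersetCard j) ?_) ?_
        · intro T hT
          simp only [hsmall, Finset.mem_filter, Finset.mem_powerset] at hT
          exact Finset.mem_powersetCard.2 ⟨hT.1.1, hT.2⟩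
        · rw [Finset.card_powersetCard]; exact Nat.choose_le_pow _ _
      refine a1.trans ?_
      rw [← Nat.cast_sum]
      exact_mod_cast a2
    rw [Finset.mul_sum]
    have : ∑ T ∈ small, ((W : ℝ) * ((-1 : ℝ) ^ T.card * ∏ p ∈ T, x p)
        - (-1 : ℝ) ^ T.card * ((range W).filter (allHit W T)).card)
        ≤ ∑ T ∈ small, ∏ p ∈ T, (nu W p : ℝ) := by
      refine Finset.sum_le_sum fun T hTs => ?_
      have := count_approx W T (hT T (Finset.mem_filter.1 hTs).1)
      rw [abs_le] at this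
      rcases neg_one_pow_eq_or ℝ T.card with e | e <;> rw [e] <;> simp only [hx] <;> linarith
    rw [Finset.sum_sub_distrib] at this
    linarith
  -- the truncated tail
  have h3 : ∏ p ∈ P, (1 - x p) - (1 / 2) ^ i * ∏ p ∈ P, (1 + 2 * x p)
      ≤ ∑ T ∈ small, (-1 : ℝ) ^ T.card * ∏ p ∈ T, x p := by
    have e1 : ∏ p ∈ P, (1 - x p) = ∑ T ∈ P.powerset, (-1 : ℝ) ^ T.card * ∏ p ∈ T, x p := by
      simp only [sub_eq_add_neg, Finset.prod_one_add, Finset.prod_neg]
    have e2 : ∏ p ∈ P, (1 + 2 * x p) = ∑ T ∈ P.powerset, 2 ^ T.card * ∏ p ∈ T, x p := by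
      simp only [Finset.prod_one_add, Finset.prod_mul_distrib, Finset.prod_const]
    rw [e1, ← Finset.sum_filter_add_sum_filter_not P.powerset (fun T => T.card ≤ i), ← hsmall]
    have : ∑ T ∈ P.powerset.filter (fun T => ¬ T.card ≤ i), (-1 : ℝ) ^ T.card * ∏ p ∈ T, x p
        ≤ (1 / 2) ^ i * ∏ p ∈ P, (1 + 2 * x p) := by
      rw [e2, Finset.mul_sum]
      refine le_trans (Finset.sum_le_sum fun T hTT => ?_)
        (Finset.sum_le_sum_of_subset_of_nonneg (Finset.filter_subset _ _) fun T _ _ => ?_)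
      · simp only [Finset.mem_filter, not_le] at hTT
        have hx0 : 0 ≤ ∏ p ∈ T, x p := Finset.prod_nonneg fun p _ => by simp only [hx]; positivity
        have : (1:ℝ) ≤ (1 / 2) ^ i * 2 ^ T.card := by
          rw [one_div, inv_pow, inv_mul_eq_div, one_le_div (by positivity)]
          exact pow_le_pow_right₀ one_le_two hTT.2.le
        rcases neg_one_pow_eq_or ℝ T.card with e | e <;> rw [e] <;> nlinarith
      · have hx0 : 0 ≤ ∏ p ∈ T, x p := Finset.prod_nonneg fun p _ => by simp only [hx]; positivity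
        positivity
    linarith
  have hW : (0 : ℝ) ≤ W := Nat.cast_nonneg W
  nlinarith [mul_le_mul_of_nonneg_left h3 hW]

lemma primes_in_block (j : ℕ) :
    ((Nat.primesLE (2 ^ (j + 1))).filter (fun p => 2 ^ j ≤ p)).card * j ≤ 4 * 2 ^ j := by
  set B := (Nat.primesLE (2 ^ (j + 1))).filter (fun p => 2 ^ j ≤ p)
  have h1 : (2 ^ j) ^ B.card ≤ ∏ p ∈ B, p :=
    Finset.pow_card_le_prod _ _ _ fun p hp => (Finset.mem_filter.1 hp).2
  have h2 : ∏ p ∈ B, p ≤ primorial (2 ^ (j + 1)) := by
    rw [primorial, ← Nat.primesLE_eq_filter_range]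
    exact Finset.prod_le_prod_of_subset_of_one_le' (Finset.filter_subset _ _)
      fun p hp _ => (Nat.mem_primesLE.1 hp).2.one_lt.le
  have h3 := h1.trans (h2.trans (primorial_le_four_pow _))
  rw [← pow_mul, show (4 : ℕ) = 2 ^ 2 by norm_num, ← pow_mul,
    pow_le_pow_iff_right₀ (by norm_num : 1 < 2)] at h3
  calc B.card * j = j * B.card := mul_comm _ _
    _ ≤ 2 * 2 ^ (j + 1) := h3
    _ = 4 * 2 ^ j := by ring

lemma sum_prime_recip (M : ℕ) :
    ∑ p ∈ Nat.primesLE (2 ^ M), (1 : ℝ) / p ≤ 4 * (1 + Real.log M) := by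
  rw [← Finset.sum_fiberwise_of_maps_to (g := fun p => Nat.log 2 p) (t := Finset.Icc 1 M)]
  · have key : ∀ j ∈ Finset.Icc 1 M,
        ∑ p ∈ (Nat.primesLE (2 ^ M)).filter (fun p => Nat.log 2 p = j), (1 : ℝ) / p
          ≤ 4 * (1 / (j : ℝ)) := by
      intro j hj
      have hj1 : (1 : ℝ) ≤ j := by exact_mod_cast (Finset.mem_Icc.1 hj).1
      set B := (Nat.primesLE (2 ^ (j + 1))).filter (fun p => 2 ^ j ≤ p)
      set D := (Nat.primesLE (2 ^ M)).filter (fun p => Nat.log 2 p = j)
      have hsub : D ⊆ B := by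
        intro p hp
        simp only [D, Finset.mem_filter, Nat.mem_primesLE] at hp
        simp only [B, Finset.mem_filter, Nat.mem_primesLE]
        have hp0 : p ≠ 0 := hp.1.2.ne_zero
        exact ⟨⟨hp.2 ▸ (Nat.lt_pow_succ_log_self one_lt_two p).le, hp.1.2⟩,
          hp.2 ▸ Nat.pow_log_le_self 2 hp0⟩
      calc ∑ p ∈ D, (1 : ℝ) / p ≤ ∑ _p ∈ D, (1 : ℝ) / 2 ^ j := by
            refine Finset.sum_le_sum fun p hp => ?_
            exact one_div_le_one_div_of_le (by positivity)
              (by exact_mod_cast (Finset.mem_filter.1 (hsub hp)).2)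
        _ = D.card * ((1 : ℝ) / 2 ^ j) := by rw [Finset.sum_const, nsmul_eq_mul]
        _ ≤ (4 * 2 ^ j / j) * ((1 : ℝ) / 2 ^ j) := by
            gcongr
            rw [le_div_iff₀ (by linarith)]
            have := (Nat.mul_le_mul_right j (Finset.card_le_card hsub)).trans (primes_in_block j)
            exact_mod_cast this
        _ = 4 * (1 / (j : ℝ)) := by field_simp
    refine (Finset.sum_le_sum key).trans ?_
    rw [← Finset.mul_sum]
    refine mul_le_mul_of_nonneg_left ?_ (by norm_num)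
    have := harmonic_le_one_add_log M
    rw [harmonic_eq_sum_Icc] at this
    push_cast at this
    simpa [one_div] using this
  · intro p hp
    rw [Nat.mem_primesLE] at hp
    rw [Finset.mem_Icc]
    refine ⟨Nat.log_pos one_lt_two hp.2.two_le, ?_⟩
    calc Nat.log 2 p ≤ Nat.log 2 (2 ^ M) := Nat.log_mono_right hp.1
      _ = M := Nat.log_pow one_lt_two M

lemma primes_many (j : ℕ) : 2 ^ j ≤ (Nat.primesLE (2 ^ j)).card * j + j + 1 := by
  have h := Chebyshev.two_pow_le_mul_lcmUpto (2 ^ j)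
  have h1 : Nat.lcmUpto (2 ^ j) ≤ (2 ^ j) ^ (Nat.primesLE (2 ^ j)).card := by
    rw [Nat.lcmUpto_eq_prod_pow_log]
    exact Finset.prod_le_pow_card _ _ _ fun p _ => Nat.pow_log_le_self _ (by positivity)
  have h2 : 2 ^ j + 1 ≤ 2 ^ (j + 1) := by
    have := Nat.one_le_two_pow (n := j); rw [pow_succ]; omega
  have := h.trans (Nat.mul_le_mul h2 h1)
  rw [← pow_mul, ← pow_add, pow_le_pow_iff_right₀ (by norm_num : 1 < 2)] at this
  linarith [mul_comm j (Nat.primesLE (2 ^ j)).card]

end Vale.Agent.P012
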