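import Vale.Agent.P012.Cover
import Vale.Agent.P012.Sieve

namespace Vale.Agent.P012

open Finset

/-- `h` has no prime factor at most `Y`. -/
def Rough (Y h : ℕ) : Prop := ∀ p ∈ h.primeFactors, Y < p

instance (Y h : ℕ) : Decidable (Rough Y h) := by unfold Rough; infer_instance

/-- `h ^ (-1/4)`. -/
noncomputable def v (h : ℕ) : ℝ := 1 / Real.sqrt (Real.sqrt h)

lemma v_nonneg (h : ℕ) : 0 ≤ v h := by unfold v; positivity

lemma v_mul (a b : ℕ) : v (a * b) = v a * v b := by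
  simp only [v, Nat.cast_mul, Real.sqrt_mul (Nat.cast_nonneg a),
    Real.sqrt_mul (Real.sqrt_nonneg _)]
  rw [div_mul_div_comm, one_mul]

lemma v_le {y p : ℕ} (hp : 2 ^ (4 * y) ≤ p) : v p ≤ (1 / 2) ^ y := by
  have h4 : ((2 : ℝ) ^ y) ^ 4 ≤ p := by
    rw [← pow_mul, mul_comm]; exact_mod_cast hp
  have h2 : ((2 : ℝ) ^ y) ^ 2 ≤ Real.sqrt p :=
    Real.le_sqrt_of_sq_le (by rw [← pow_mul]; exact h4)
  have h1 : (2 : ℝ) ^ y ≤ Real.sqrt (Real.sqrt p) := Real.le_sqrt_of_sq_le h2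
  rw [v, one_div_pow]
  exact one_div_le_one_div_of_le (by positivity) h1

lemma w_div (h : ℕ) (hh : 0 < h) : w h / h = v h := by
  rw [w, v]
  have h0 : (0 : ℝ) < h := by exact_mod_cast hh
  have e1 : Real.sqrt h * Real.sqrt h = h := Real.mul_self_sqrt h0.le
  have e2 : Real.sqrt (Real.sqrt h) * Real.sqrt (Real.sqrt h) = Real.sqrt h :=
    Real.mul_self_sqrt (Real.sqrt_nonneg _)
  have : 0 < Real.sqrt (Real.sqrt h) := by positivity
  field_simp
  calc _ = Real.sqrt h * (Real.sqrt (Real.sqrt h) * Real.sqrt (Real.sqrt h)) := by ring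
    _ = _ := by rw [e2, e1]

lemma rough_div_sum (y : ℕ) : ∀ D : ℕ, 0 < D →
    ∑ h ∈ D.divisors.filter (Rough (2 ^ (4 * y))), v h ≤ (1 + (1 / 2 : ℝ) ^ y) ^ Nat.log 2 D := by
  intro D
  induction D using Nat.strong_induction_on with
  | _ D ih =>
    intro hD
    rcases Nat.eq_or_lt_of_le (Nat.one_le_iff_ne_zero.2 hD.ne') with rfl | h1
    · rw [Nat.divisors_one, Finset.filter_singleton]
      split_ifs <;> simp [v]
    set p := D.minFac with hp
    have hpp : p.Prime := Nat.minFac_prime (by omega)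
    obtain ⟨D', hD'⟩ := Nat.minFac_dvd D
    rw [← hp] at hD'
    have hD'0 : 0 < D' := Nat.pos_of_ne_zero (by rintro rfl; omega)
    have hlt : D' < D := by
      rw [hD']; nlinarith [hpp.two_le]
    have hlog : Nat.log 2 D' + 1 ≤ Nat.log 2 D := by
      apply Nat.le_log_of_pow_le one_lt_two
      rw [pow_succ, hD', mul_comm p]
      exact Nat.mul_le_mul (Nat.pow_log_le_self 2 hD'0.ne') hpp.two_le
    have IH := ih D' hlt hD'0
    have hbase : (1 : ℝ) ≤ 1 + (1 / 2 : ℝ) ^ y := le_add_of_nonneg_right (by positivity)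
    have hpow : (1 + (1 / 2 : ℝ) ^ y) ^ (Nat.log 2 D' + 1) ≤ (1 + (1 / 2 : ℝ) ^ y) ^ Nat.log 2 D :=
      pow_le_pow_right₀ hbase hlog
    refine le_trans ?_ hpow
    rw [pow_succ]
    set R := fun n : ℕ => n.divisors.filter (Rough (2 ^ (4 * y))) with hR
    have hcase : ∀ h ∈ R D, h ∈ R D' ∨ (2 ^ (4 * y) < p ∧ ∃ e ∈ R D', h = p * e) := by
      intro h hh
      simp only [hR, Finset.mem_filter, Nat.mem_divisors] at hh ⊢
      obtain ⟨⟨hd, -⟩, hr⟩ := hh
      by_cases hph : p ∣ h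
      · obtain ⟨e, rfl⟩ := hph
        have he : e ∣ D' := (Nat.mul_dvd_mul_iff_left hpp.pos).1 (hD' ▸ hd)
        have he0 : e ≠ 0 := fun e0 => by rw [e0, zero_dvd_iff] at he; omega
        refine Or.inr ⟨hr p ?_, e, ⟨⟨he, hD'0.ne'⟩, ?_⟩, rfl⟩
        · exact Nat.mem_primeFactors.2 ⟨hpp, dvd_mul_right p e, mul_ne_zero hpp.ne_zero he0⟩
        · intro q hq
          refine hr q (Nat.mem_primeFactors.2 ⟨Nat.prime_of_mem_primeFactors hq, ?_,
            mul_ne_zero hpp.ne_zero he0⟩)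
          exact (Nat.dvd_of_mem_primeFactors hq).trans (dvd_mul_left e p)
      · refine Or.inl ⟨⟨?_, hD'0.ne'⟩, hr⟩
        exact (Nat.Coprime.dvd_of_dvd_mul_left
          ((Nat.Prime.coprime_iff_not_dvd hpp).2 hph).symm (hD' ▸ hd))
    by_cases hpr : 2 ^ (4 * y) < p
    · have hsub : R D ⊆ R D' ∪ (R D').image (p * ·) := by
        intro h hh
        rcases hcase h hh with hh | ⟨-, e, he, rfl⟩
        · exact Finset.mem_union_left _ hh
        · exact Finset.mem_union_right _ (Finset.mem_image_of_mem _ he)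
      calc ∑ h ∈ R D, v h ≤ ∑ h ∈ R D' ∪ (R D').image (p * ·), v h :=
            Finset.sum_le_sum_of_subset_of_nonneg hsub fun _ _ _ => v_nonneg _
        _ ≤ ∑ h ∈ R D', v h + ∑ h ∈ (R D').image (p * ·), v h := by
            rw [← Finset.sum_union_inter]
            exact le_add_of_nonneg_right (Finset.sum_nonneg fun _ _ => v_nonneg _)
        _ = ∑ h ∈ R D', v h * (1 + v p) := by
            rw [Finset.sum_image fun a _ b _ e => mul_left_cancel₀ hpp.ne_zero e,
              ← Finset.sum_add_distrib]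
            refine Finset.sum_congr rfl fun h _ => ?_
            rw [v_mul]; ring
        _ ≤ _ := by
            rw [← Finset.sum_mul]
            exact mul_le_mul IH (add_le_add le_rfl (v_le hpr.le))
              (by have := v_nonneg p; positivity) (by positivity)
    · have hsub : R D ⊆ R D' := fun h hh => (hcase h hh).resolve_right fun e => hpr e.1
      exact (Finset.sum_le_sum_of_subset_of_nonneg hsub fun _ _ _ => v_nonneg _).trans
        (IH.trans (le_mul_of_one_le_right (by positivity) hbase))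

lemma rough_div_sum' (y z D : ℕ) (hD : 0 < D) (hz : D < 2 ^ z)
    (hsmall : (z : ℝ) * (1 / 2) ^ y ≤ 1 / 2) :
    ∑ h ∈ (D.divisors.filter (Rough (2 ^ (4 * y)))).erase 1, v h ≤ 2 * z * (1 / 2) ^ y := by
  have h1 : 1 ∈ D.divisors.filter (Rough (2 ^ (4 * y))) := by
    simp [Finset.mem_filter, Nat.mem_divisors, hD.ne', Rough]
  have h := rough_div_sum y D hD
  rw [← Finset.add_sum_erase _ _ h1] at h
  have hv1 : v 1 = 1 := by simp [v]
  have hlog : Nat.log 2 D ≤ z := (Nat.log_mono_right hz.le).trans_eq (Nat.log_pow one_lt_two z)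
  have he : (1 + (1 / 2 : ℝ) ^ y) ^ Nat.log 2 D ≤ Real.exp (z * (1 / 2) ^ y) := by
    calc (1 + (1 / 2 : ℝ) ^ y) ^ Nat.log 2 D ≤ (1 + (1 / 2 : ℝ) ^ y) ^ z :=
          pow_le_pow_right₀ (le_add_of_nonneg_right (by positivity)) hlog
      _ ≤ Real.exp ((1 / 2 : ℝ) ^ y) ^ z :=
          pow_le_pow_left₀ (by positivity) (by linarith [Real.add_one_le_exp ((1/2 : ℝ) ^ y)]) z
      _ = _ := by rw [← Real.exp_nat_mul]
  have hx0 : 0 ≤ (z : ℝ) * (1 / 2) ^ y := by positivity
  have he2 := Real.abs_exp_sub_one_le (x := (z : ℝ) * (1 / 2) ^ y) (by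
    rw [abs_of_nonneg hx0]; linarith)
  rw [abs_of_nonneg hx0, abs_le] at he2
  linarith [he2.2]

lemma natCast_eq_iff_dvd_dist (h a b : ℕ) : (a : ZMod h) = (b : ZMod h) ↔ h ∣ Nat.dist a b := by
  rw [ZMod.natCast_eq_natCast_iff]
  rcases le_total a b with hab | hab
  · rw [Nat.modEq_iff_dvd' hab, Nat.dist_eq_sub_of_le hab]
  · rw [Nat.ModEq.comm, Nat.modEq_iff_dvd' hab, Nat.dist_eq_sub_of_le_right hab]

lemma coll_le (A : Finset ℕ) (h : ℕ) :
    (coll A h : ℝ) ≤ A.card + ∑ p ∈ A.offDiag, if h ∣ Nat.dist p.1 p.2 then (1 : ℝ) else 0 := by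
  rw [← Finset.sum_filter, Finset.sum_const, nsmul_eq_mul, mul_one, ← Nat.cast_add]
  norm_cast
  refine le_trans (Finset.card_le_card (t := A.diag ∪ A.offDiag.filter
    (fun p => h ∣ Nat.dist p.1 p.2)) ?_) ((Finset.card_union_le _ _).trans (by rw [Finset.diag_card]))
  rintro ⟨a, b⟩ hp
  simp only [Finset.mem_filter, Finset.mem_product] at hp
  obtain ⟨⟨ha, hb⟩, e⟩ := hp
  by_cases hab : a = b
  · exact Finset.mem_union_left _ (Finset.mem_diag.2 ⟨ha, hab⟩)
  · exact Finset.mem_union_right _ (Finset.mem_filter.2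
      ⟨Finset.mem_offDiag.2 ⟨ha, hb, hab⟩, (natCast_eq_iff_dvd_dist h a b).1 e⟩)

/-- Average badness over a family of rough numbers. -/
lemma avg (A : Finset ℕ) (hA : A.Nonempty) (F : Finset ℕ) (g : ℕ → ℕ) (W y z G : ℕ)
    (hW : W < 2 ^ (G + 1)) (hcard : 2 ^ (3 * (G + 1)) ≤ A.card)
    (hAz : ∀ a ∈ A, a < 2 ^ z) (hsmall : (z : ℝ) * (1 / 2) ^ y ≤ 1 / 2)
    (hg : ∀ f ∈ F, 1 ≤ g f ∧ g f < W ∧ Rough (2 ^ (4 * y)) (g f))
    (hinj : ∀ f ∈ F, ∀ f' ∈ F, g f = g f' → f = f') :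
    ∑ f ∈ F, bad A (g f)
      ≤ (F.card : ℝ) * (1 / 2) ^ (G + 1) + (W : ℝ) * (2 * z * (1 / 2) ^ y) := by
  have hA0 : (0 : ℝ) < A.card := by exact_mod_cast hA.card_pos
  have step : ∀ f ∈ F, bad A (g f) * (A.card : ℝ) ^ 2 ≤
      (A.card : ℝ) * (2 : ℝ) ^ (2 * (G + 1)) + ∑ p ∈ A.offDiag,
        ∑ h ∈ ((Nat.dist p.1 p.2).divisors.filter (Rough (2 ^ (4 * y)))).erase 1,
          if h ∣ g f then w h else 0 := by
    intro f hf
    obtain ⟨g1, g2, g3⟩ := hg f hf
    have hcol : ∀ h, w h * coll A h ≤ w h * A.card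
        + ∑ p ∈ A.offDiag, (if h ∣ Nat.dist p.1 p.2 then w h else 0) := by
      intro h
      refine (mul_le_mul_of_nonneg_left (coll_le A h) (w_nonneg h)).trans (le_of_eq ?_)
      rw [mul_add, Finset.mul_sum]
      simp only [mul_ite, mul_one, mul_zero]
    rw [bad, Finset.sum_mul,
      Finset.sum_congr rfl fun h _ => div_mul_cancel₀ (w h * coll A h) (by positivity)]
    refine (Finset.sum_le_sum fun h _ => hcol h).trans ?_
    rw [Finset.sum_add_distrib, Finset.sum_comm, ← Finset.sum_mul, mul_comm (∑ _ ∈ _, w _)]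
    refine add_le_add (mul_le_mul_of_nonneg_left ?_ hA0.le) (Finset.sum_le_sum fun p hp => ?_)
    · have hgb : ((g f : ℕ) : ℝ) ≤ (2 : ℝ) ^ (G + 1) := by exact_mod_cast (g2.trans hW).le
      calc ∑ h ∈ (g f).divisors.erase 1, w h ≤ ∑ _h ∈ (g f).divisors.erase 1, ((g f : ℕ) : ℝ) := by
            refine Finset.sum_le_sum fun h hh => ?_
            have hm := Finset.mem_of_mem_erase hh
            have hle : (h : ℝ) ≤ (g f : ℕ) := by exact_mod_cast Nat.divisor_le hm
            have h1 : (1 : ℝ) ≤ h := by exact_mod_cast Nat.pos_of_mem_divisors hm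
            refine le_trans ?_ hle
            have : v h ≤ 1 := by
              rw [v, div_le_one (by positivity)]
              exact Real.one_le_sqrt.2 (Real.one_le_sqrt.2 h1)
            have e := w_div h (Nat.pos_of_mem_divisors hm)
            rw [div_eq_iff (by positivity)] at e
            rw [e]; exact mul_le_of_le_one_left (by positivity) this
        _ = ((g f).divisors.erase 1).card * ((g f : ℕ) : ℝ) := by
            rw [Finset.sum_const, nsmul_eq_mul]
        _ ≤ ((g f : ℕ) : ℝ) * ((g f : ℕ) : ℝ) := by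
            gcongr
            exact_mod_cast (Finset.card_le_card (Finset.erase_subset _ _)).trans
              (Nat.card_divisors_le_self _)
        _ ≤ (2 : ℝ) ^ (G + 1) * (2 : ℝ) ^ (G + 1) := by gcongr
        _ = (2 : ℝ) ^ (2 * (G + 1)) := by rw [← pow_add]; ring_nf
    · rw [← Finset.sum_filter, ← Finset.sum_filter]
      refine Finset.sum_le_sum_of_subset_of_nonneg ?_ fun h _ _ => w_nonneg h
      intro h hh
      simp only [Finset.mem_filter, Finset.mem_erase, Nat.mem_divisors] at hh ⊢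
      obtain ⟨⟨h1, hd, -⟩, hD⟩ := hh
      have hne : p.1 ≠ p.2 := (Finset.mem_offDiag.1 hp).2.2
      have hD0 : Nat.dist p.1 p.2 ≠ 0 := fun e => hne (Nat.eq_of_dist_eq_zero e)
      refine ⟨⟨h1, ⟨hD, hD0⟩, fun q hq => g3 q ?_⟩, hd⟩
      exact Nat.mem_primeFactors.2 ⟨Nat.prime_of_mem_primeFactors hq,
        (Nat.dvd_of_mem_primeFactors hq).trans hd, by omega⟩
  have hoff : ∑ f ∈ F, ∑ p ∈ A.offDiag,
      ∑ h ∈ ((Nat.dist p.1 p.2).divisors.filter (Rough (2 ^ (4 * y)))).erase 1,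
        (if h ∣ g f then w h else 0)
      ≤ (A.card : ℝ) ^ 2 * ((W : ℝ) * (2 * z * (1 / 2) ^ y)) := by
    rw [Finset.sum_comm]
    have hle : (A.offDiag.card : ℝ) ≤ (A.card : ℝ) ^ 2 := by
      rw [Finset.offDiag_card, sq]; exact_mod_cast Nat.sub_le _ _
    refine le_trans (Finset.sum_le_card_nsmul _ _ ((W : ℝ) * (2 * z * (1 / 2) ^ y)) ?_) ?_
    swap
    · rw [nsmul_eq_mul]; exact mul_le_mul_of_nonneg_right hle (by positivity)
    intro p hp
    obtain ⟨hp1, hp2, hne⟩ := Finset.mem_offDiag.1 hp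
    have hD0 : 0 < Nat.dist p.1 p.2 := Nat.dist_pos_of_ne hne
    have hDz : Nat.dist p.1 p.2 < 2 ^ z := by
      rcases le_total p.1 p.2 with h | h
      · rw [Nat.dist_eq_sub_of_le h]; have := hAz _ hp2; omega
      · rw [Nat.dist_eq_sub_of_le_right h]; have := hAz _ hp1; omega
    rw [Finset.sum_comm]
    refine le_trans (Finset.sum_le_sum fun h hh => ?_) (le_of_eq_of_le (Finset.mul_sum _ _ _).symm
      (mul_le_mul_of_nonneg_left (rough_div_sum' y z _ hD0 hDz hsmall) (Nat.cast_nonneg W)))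
    have hh0 : 0 < h :=
      Nat.pos_of_mem_divisors (Finset.mem_filter.1 (Finset.mem_of_mem_erase hh)).1
    rw [← Finset.sum_filter, Finset.sum_const, nsmul_eq_mul]
    have hc : (F.filter fun f => h ∣ g f).card * h ≤ W := by
      have : (F.filter fun f => h ∣ g f).card ≤ ((Finset.Ioc 0 W).filter fun x => h ∣ x).card := by
        refine Finset.card_le_card_of_injOn g ?_ ?_
        · intro f hf
          obtain ⟨hf1, hf2⟩ := Finset.mem_filter.1 hf
          obtain ⟨g1, g2, -⟩ := hg f hf1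
          exact Finset.mem_filter.2 ⟨Finset.mem_Ioc.2 ⟨g1, g2.le⟩, hf2⟩
        · intro a ha b hb
          exact hinj a (Finset.mem_filter.1 ha).1 b (Finset.mem_filter.1 hb).1
      rw [Nat.Ioc_filter_dvd_card_eq_div] at this
      exact (Nat.mul_le_mul_right h this).trans (Nat.div_mul_le_self W h)
    rw [← w_div h hh0, ← mul_div_assoc, le_div_iff₀ (by exact_mod_cast hh0)]
    calc ((F.filter fun f => h ∣ g f).card : ℝ) * w h * h
        = (((F.filter fun f => h ∣ g f).card * h : ℕ) : ℝ) * w h := by push_cast; ring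
      _ ≤ (W : ℝ) * w h := mul_le_mul_of_nonneg_right (by exact_mod_cast hc) (w_nonneg h)
  have htot : (∑ f ∈ F, bad A (g f)) * (A.card : ℝ) ^ 2
      ≤ (F.card : ℝ) * ((A.card : ℝ) * (2 : ℝ) ^ (2 * (G + 1)))
        + (A.card : ℝ) ^ 2 * ((W : ℝ) * (2 * z * (1 / 2) ^ y)) := by
    rw [Finset.sum_mul]
    refine (Finset.sum_le_sum step).trans ?_
    rw [Finset.sum_add_distrib, Finset.sum_const, nsmul_eq_mul]
    linarith
  refine le_of_mul_le_mul_right (htot.trans ?_) (pow_pos hA0 2)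
  rw [add_mul, mul_comm ((A.card : ℝ) ^ 2)]
  refine add_le_add ?_ le_rfl
  rw [mul_assoc]
  refine mul_le_mul_of_nonneg_left ?_ (Nat.cast_nonneg _)
  have hc : ((2 : ℝ) ^ (3 * (G + 1))) ≤ A.card := by exact_mod_cast hcard
  have : (2 : ℝ) ^ (2 * (G + 1)) ≤ (1 / 2) ^ (G + 1) * (A.card : ℝ) := by
    rw [one_div, inv_pow, inv_mul_eq_div, le_div_iff₀ (by positivity), ← pow_add]
    rw [show 2 * (G + 1) + (G + 1) = 3 * (G + 1) by ring]; exact hc
  calc (A.card : ℝ) * (2 : ℝ) ^ (2 * (G + 1))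
      ≤ (A.card : ℝ) * ((1 / 2) ^ (G + 1) * (A.card : ℝ)) := mul_le_mul_of_nonneg_left this hA0.le
    _ = _ := by ring

lemma exp_neg_le {x : ℝ} (h0 : 0 ≤ x) (h1 : x ≤ 2 / 3) : Real.exp (-(3 * x)) ≤ 1 - x := by
  have h2 := Real.add_one_le_exp (3 * x)
  have h3 : (1 : ℝ) ≤ (1 - x) * Real.exp (3 * x) := by
    nlinarith [mul_le_mul_of_nonneg_left h2 (show (0:ℝ) ≤ 1 - x by linarith)]
  rw [Real.exp_neg, inv_le_iff_one_le_mul₀ (Real.exp_pos _)]
  exact h3

lemma not_hit_dvd {W p f : ℕ} (hf : f ≤ W) (h : ¬ hit W p f) : ¬ p ∣ f ∧ ¬ p ∣ W - f := by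
  rw [hit, not_or] at h
  exact ⟨fun hd => h.1 (Nat.mod_eq_zero_of_dvd hd), fun hd =>
    h.2 ((Nat.modEq_iff_dvd' hf).2 hd)⟩

/-- Many `f < W` have both `f` and `W - f` rough. -/
lemma rough_count (W M i G K : ℕ) (hi : Odd i) (hM : 1 ≤ M) (hW : Even W) (hWG : 2 ^ G ≤ W)
    (hK : K = 3 ^ 24 * M ^ 24) (c1 : 2 * K * (3 ^ 16 * M ^ 16) ≤ 2 ^ i)
    (c2 : 4 * K * 2 ^ ((M + 2) * i) ≤ 2 ^ G) :
    ∃ F : Finset ℕ, (∀ f ∈ F, 1 ≤ f ∧ f < W ∧ Rough (2 ^ M) f ∧ Rough (2 ^ M) (W - f)) ∧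
      (W : ℝ) / (4 * K) ≤ F.card := by
  obtain ⟨P, hP⟩ : ∃ P, P = Nat.primesLE (2 ^ M) := ⟨_, rfl⟩
  refine ⟨(range W).filter (fun f : ℕ => ∀ p ∈ P, ¬ hit W p f), ?_, ?_⟩
  · intro f hf
    rw [Finset.mem_filter, Finset.mem_range] at hf
    subst hP
    have h2 : (2 : ℕ) ∈ Nat.primesLE (2 ^ M) :=
      Nat.mem_primesLE.2 ⟨Nat.le_self_pow (by omega) 2, Nat.prime_two⟩
    have hf1 : 1 ≤ f := by
      rcases Nat.eq_zero_or_pos f with h | h
      · exact absurd (by simp [hit, h]) (hf.2 2 h2)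
      · exact h
    refine ⟨hf1, hf.1, fun p hp => ?_, fun p hp => ?_⟩
    · by_contra hc
      exact (not_hit_dvd hf.1.le (hf.2 p (Nat.mem_primesLE.2
        ⟨not_lt.1 hc, Nat.prime_of_mem_primeFactors hp⟩))).1 (Nat.dvd_of_mem_primeFactors hp)
    · by_contra hc
      exact (not_hit_dvd hf.1.le (hf.2 p (Nat.mem_primesLE.2
        ⟨not_lt.1 hc, Nat.prime_of_mem_primeFactors hp⟩))).2 (Nat.dvd_of_mem_primeFactors hp)
  · set B := 8 * (1 + Real.log M) with hB
    have hsieve := sieve W P (fun p hp => (Nat.mem_primesLE.1 (hP ▸ hp)).2) i hi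
    set x : ℕ → ℝ := fun p => (nu W p : ℝ) / p with hx
    have hxb : ∀ p ∈ P, 0 ≤ x p ∧ x p ≤ 2 / 3 ∧ x p ≤ 2 * ((1 : ℝ) / p) := by
      intro p hp
      have hp2 : p.Prime := (Nat.mem_primesLE.1 (hP ▸ hp)).2
      have hnu : (nu W p : ℝ) ≤ 2 := by exact_mod_cast nu_le_two W p
      refine ⟨by positivity, ?_, ?_⟩
      · rcases hp2.eq_two_or_odd with rfl | hodd
        · simp only [hx, nu_two W hW]; norm_num
        · have hp3 : (3 : ℝ) ≤ p := by
            have := hp2.two_le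
            exact_mod_cast (show 3 ≤ p by omega)
          simp only [hx]
          rw [div_le_iff₀ (by linarith)]; linarith
      · simp only [hx]; rw [mul_one_div]; gcongr
    have hS : ∑ p ∈ P, x p ≤ B := by
      refine (Finset.sum_le_sum fun p hp => (hxb p hp).2.2).trans ?_
      rw [← Finset.mul_sum]
      have := sum_prime_recip M
      rw [hB, hP]; linarith
    have hMr : (0 : ℝ) < M := by exact_mod_cast hM
    have e3 : Real.exp 1 ≤ 3 := Real.exp_one_lt_three.le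
    have expB : ∀ n : ℕ, Real.exp ((n : ℝ) * (1 + Real.log M)) ≤ 3 ^ n * (M : ℝ) ^ n := by
      intro n
      rw [Real.exp_nat_mul, ← mul_pow, Real.exp_add, Real.exp_log hMr]
      gcongr
    have hKr : (K : ℝ) = 3 ^ 24 * (M : ℝ) ^ 24 := by exact_mod_cast hK
    have hKpos : (0 : ℝ) < K := by rw [hKr]; positivity
    have hlow : 1 / (K : ℝ) ≤ ∏ p ∈ P, (1 - x p) := by
      refine le_trans ?_ (Finset.prod_le_prod (fun p _ => (Real.exp_pos _).le)
        fun p hp => exp_neg_le (hxb p hp).1 (hxb p hp).2.1)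
      rw [← Real.exp_sum, one_div, hKr, inv_le_iff_one_le_mul₀ (by positivity)]
      have h24 : Real.exp (3 * ∑ p ∈ P, x p) ≤ 3 ^ 24 * (M : ℝ) ^ 24 := by
        refine (Real.exp_le_exp.2 ?_).trans (expB 24)
        push_cast; rw [hB] at hS; linarith
      rw [Finset.sum_neg_distrib, ← Finset.mul_sum, Real.exp_neg]
      calc (1 : ℝ) = (Real.exp (3 * ∑ p ∈ P, x p))⁻¹ * Real.exp (3 * ∑ p ∈ P, x p) :=
            (inv_mul_cancel₀ (Real.exp_pos _).ne').symm
        _ ≤ _ := mul_le_mul_of_nonneg_left h24 (by positivity)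
    have htail : (1 / 2 : ℝ) ^ i * ∏ p ∈ P, (1 + 2 * x p) ≤ 1 / (2 * K) := by
      have h16 : ∏ p ∈ P, (1 + 2 * x p) ≤ 3 ^ 16 * (M : ℝ) ^ 16 := by
        refine (Finset.prod_le_prod (fun p hp => by linarith [(hxb p hp).1])
          fun p _ => by linarith [Real.add_one_le_exp (2 * x p)] :
            _ ≤ ∏ p ∈ P, Real.exp (2 * x p)).trans ?_
        rw [← Real.exp_sum, ← Finset.mul_sum]
        refine (Real.exp_le_exp.2 ?_).trans (expB 16)
        push_cast; rw [hB] at hS; linarith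
      refine (mul_le_mul_of_nonneg_left h16 (by positivity)).trans ?_
      rw [one_div_pow, div_mul_eq_mul_div, one_mul, div_le_div_iff₀ (by positivity) (by positivity)]
      have := (Nat.cast_le (α := ℝ)).2 c1
      push_cast at this
      linarith
    have herr : (((2 * P.card + 1) ^ i : ℕ) : ℝ) ≤ (W : ℝ) / (4 * K) := by
      rw [le_div_iff₀ (by positivity)]
      have hc : P.card ≤ 2 ^ M + 1 := by
        rw [hP, Nat.primesLE_eq_filter_range]
        exact (Finset.card_filter_le _ _).trans (Finset.card_range _).le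
      have h1 : (2 * P.card + 1) ^ i ≤ 2 ^ ((M + 2) * i) := by
        rw [pow_mul]
        refine Nat.pow_le_pow_left ?_ i
        have : 2 ≤ 2 ^ M := Nat.le_self_pow (by omega) 2
        rw [pow_add]; omega
      have h2 : (2 * P.card + 1) ^ i * (4 * K) ≤ W := by
        calc (2 * P.card + 1) ^ i * (4 * K) ≤ 2 ^ ((M + 2) * i) * (4 * K) :=
              Nat.mul_le_mul_right _ h1
          _ = 4 * K * 2 ^ ((M + 2) * i) := mul_comm _ _
          _ ≤ W := c2.trans hWG
      exact_mod_cast h2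
    have hWr : (0 : ℝ) ≤ W := Nat.cast_nonneg _
    have : (W : ℝ) * (1 / (2 * K)) ≤ W * (∏ p ∈ P, (1 - x p) -
        (1 / 2) ^ i * ∏ p ∈ P, (1 + 2 * x p)) := by
      refine mul_le_mul_of_nonneg_left ?_ hWr
      have : 1 / (K : ℝ) = 1 / (2 * K) + 1 / (2 * K) := by field_simp; ring
      linarith
    have e : (W : ℝ) * (1 / (2 * K)) = W / (4 * K) + W / (4 * K) := by field_simp; ring
    simp only [hx] at this
    linarith

end Vale.Agent.P012
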