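import Mathlib

namespace Vale.Agent.P012

open Finset

/-- `exp (2πi n / h)`. -/
noncomputable def ee (h n : ℕ) : ℂ :=
  Complex.exp (2 * Real.pi * Complex.I * (n : ℂ) / (h : ℂ))

lemma ee_eq (h : ℕ) [NeZero h] (n : ℕ) : ee h n = ZMod.stdAddChar (n : ZMod h) := by
  rw [ee, ← Int.cast_natCast (R := ZMod h), ZMod.stdAddChar_coe]
  simp

lemma ee_scale (d h t n : ℕ) (hd : 0 < d) : ee (d * h) (d * t * n) = ee h (t * n) := by
  rw [ee, ee]
  congr 1
  rcases Nat.eq_zero_or_pos h with rfl | hh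
  · simp
  push_cast
  have hd' : (d : ℂ) ≠ 0 := Nat.cast_ne_zero.2 hd.ne'
  have hh' : (h : ℂ) ≠ 0 := Nat.cast_ne_zero.2 hh.ne'
  field_simp

lemma conj_std (h : ℕ) [NeZero h] (x : ZMod h) :
    starRingEnd ℂ (ZMod.stdAddChar x) = ZMod.stdAddChar (-x) := by
  rw [ZMod.stdAddChar_apply, ZMod.stdAddChar_apply, AddChar.map_neg_eq_inv,
    Circle.coe_inv_eq_conj]

/-- The number of pairs congruent modulo `h`. -/
def coll (A : Finset ℕ) (h : ℕ) : ℕ :=
  ((A ×ˢ A).filter fun p => (p.1 : ZMod h) = (p.2 : ZMod h)).card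

lemma parseval (h : ℕ) [NeZero h] (A : Finset ℕ) (f : ℕ → ZMod h) :
    ∑ r : ZMod h, ‖∑ b ∈ A, ZMod.stdAddChar (r * f b)‖ ^ 2
      = (h : ℝ) * (((A ×ˢ A).filter fun p => f p.1 = f p.2).card : ℝ) := by
  have key : ∀ r : ZMod h, ((‖∑ b ∈ A, ZMod.stdAddChar (r * f b)‖ ^ 2 : ℝ) : ℂ)
      = ∑ p ∈ A ×ˢ A, ZMod.stdAddChar (r * (f p.1 - f p.2)) := by
    intro r
    rw [Complex.ofReal_pow, ← Complex.mul_conj' , map_sum, Finset.sum_mul_sum,
      ← Finset.sum_product']
    refine Finset.sum_congr rfl fun p _ => ?_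
    rw [conj_std, ← AddChar.map_add_eq_mul, mul_sub, sub_eq_add_neg]
  have : ((∑ r : ZMod h, ‖∑ b ∈ A, ZMod.stdAddChar (r * f b)‖ ^ 2 : ℝ) : ℂ)
      = (((h : ℝ) * (((A ×ˢ A).filter fun p => f p.1 = f p.2).card : ℝ) : ℝ) : ℂ) := by
    rw [Complex.ofReal_sum, Finset.sum_congr rfl fun r _ => key r, Finset.sum_comm,
      Finset.sum_congr rfl fun p _ =>
        AddChar.sum_mulShift (f p.1 - f p.2) (ZMod.isPrimitive_stdAddChar h)]
    simp only [sub_eq_zero, ZMod.card]
    push_cast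
    rw [Finset.sum_ite, Finset.sum_const, Finset.sum_const_zero, add_zero, nsmul_eq_mul]
    ring
  exact_mod_cast this

lemma coll_eq_sum (h : ℕ) [NeZero h] (A : Finset ℕ) :
    (coll A h : ℝ) = ∑ r : ZMod h, ((A.filter fun a : ℕ => (a : ZMod h) = r).card : ℝ) ^ 2 := by
  have : coll A h = ∑ r : ZMod h, (A.filter fun a : ℕ => (a : ZMod h) = r).card ^ 2 := by
    rw [coll, Finset.card_eq_sum_card_fiberwise (f := fun p : ℕ × ℕ => (p.1 : ZMod h))
      (t := Finset.univ) (fun _ _ => Finset.mem_univ _)]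
    refine Finset.sum_congr rfl fun r _ => ?_
    rw [sq, ← Finset.card_product, Finset.filter_filter]
    congr 1
    ext ⟨a, b⟩
    simp only [Finset.mem_filter, Finset.mem_product]
    constructor
    · rintro ⟨⟨ha, hb⟩, e, r'⟩; exact ⟨⟨ha, r'⟩, hb, e ▸ r'⟩
    · rintro ⟨⟨ha, r'⟩, hb, r''⟩; exact ⟨⟨ha, hb⟩, r'.trans r''.symm, r'⟩
  exact_mod_cast this

lemma bilinear (h : ℕ) [NeZero h] (A : Finset ℕ) (t : ZMod h) (ht : IsUnit t) :
    ‖∑ a ∈ A, ∑ b ∈ A, ZMod.stdAddChar ((a : ZMod h) * (t * (b : ZMod h)))‖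
      ≤ Real.sqrt h * coll A h := by
  classical
  set α : ZMod h → ℝ := fun r => ((A.filter fun a : ℕ => (a : ZMod h) = r).card : ℝ)
  set β : ZMod h → ℝ := fun r => ‖∑ b ∈ A, ZMod.stdAddChar (r * (t * (b : ZMod h)))‖
  have h1 : ‖∑ a ∈ A, ∑ b ∈ A, ZMod.stdAddChar ((a : ZMod h) * (t * (b : ZMod h)))‖
      ≤ ∑ r : ZMod h, α r * β r := by
    refine (norm_sum_le _ _).trans (le_of_eq ?_)
    rw [← Finset.sum_fiberwise A (fun a => (a : ZMod h))]
    refine Finset.sum_congr rfl fun r _ => ?_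
    rw [Finset.sum_congr rfl (g := fun _ => β r) fun a ha => by
      simp only [Finset.mem_filter] at ha; simp only [β, ha.2]]
    simp [α]
  have h2 := Finset.sum_mul_sq_le_sq_mul_sq (Finset.univ : Finset (ZMod h)) α β
  have hA : ∑ r : ZMod h, α r ^ 2 = coll A h := (coll_eq_sum h A).symm
  have hB : ∑ r : ZMod h, β r ^ 2 = (h : ℝ) * coll A h := by
    have := parseval h A (fun b => t * (b : ZMod h))
    rw [this, coll]
    simp only [ht.mul_right_inj]
  rw [hA, hB] at h2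
  refine h1.trans ?_
  have hnn : 0 ≤ ∑ r : ZMod h, α r * β r :=
    Finset.sum_nonneg fun r _ => mul_nonneg (by simp [α]) (norm_nonneg _)
  refine (sq_le_sq₀ hnn (by positivity)).1 ?_
  rw [mul_pow, Real.sq_sqrt (Nat.cast_nonneg h)]
  calc _ ≤ _ := h2
    _ = _ := by ring

noncomputable def F1 (A : Finset ℕ) (h t : ℕ) : ℂ := ∑ a ∈ A, ee h (t * a)

noncomputable def F2 (A : Finset ℕ) (h t : ℕ) : ℂ := ∑ a ∈ A, ∑ b ∈ A, ee h (t * (a * b))

lemma level_bound (A : Finset ℕ) (h : ℕ) [NeZero h] :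
    ∑ t ∈ (Finset.range h).filter (fun t => Nat.Coprime t h), ‖F2 A h t‖ * ‖F1 A h t‖ ^ 2
      ≤ Real.sqrt h * coll A h * ((h : ℝ) * coll A h) := by
  calc ∑ t ∈ (Finset.range h).filter (fun t => Nat.Coprime t h), ‖F2 A h t‖ * ‖F1 A h t‖ ^ 2
      ≤ ∑ t ∈ (Finset.range h).filter (fun t => Nat.Coprime t h),
          Real.sqrt h * coll A h * ‖F1 A h t‖ ^ 2 := by
        refine Finset.sum_le_sum fun t ht => mul_le_mul_of_nonneg_right ?_ (by positivity)
        rw [Finset.mem_filter] at ht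
        have hu : IsUnit (t : ZMod h) := (ZMod.isUnit_iff_coprime t h).2 ht.2
        refine le_of_eq_of_le ?_ (bilinear h A _ hu)
        simp only [F2, ee_eq, Nat.cast_mul, mul_left_comm (t : ZMod h)]
    _ ≤ ∑ t ∈ Finset.range h, Real.sqrt h * coll A h * ‖F1 A h t‖ ^ 2 :=
        Finset.sum_le_sum_of_subset_of_nonneg (Finset.filter_subset _ _) fun _ _ _ => by positivity
    _ = Real.sqrt h * coll A h * ((h : ℝ) * coll A h) := by
        rw [← Finset.mul_sum]
        congr 1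
        have := parseval h A (fun b => (b : ZMod h))
        rw [coll, ← this]
        refine Finset.sum_bij' (fun t _ => (t : ZMod h)) (fun r _ => r.val) (by simp)
          (fun r _ => Finset.mem_range.2 r.val_lt) ?_ ?_ ?_
        · intro t ht; exact ZMod.val_cast_of_lt (Finset.mem_range.1 ht)
        · intro r _; exact ZMod.natCast_zmod_val r
        · intro t _
          simp only [F1, ee_eq, Nat.cast_mul]

/-- Divisor weight `h ^ (3/4)`. -/
noncomputable def w (h : ℕ) : ℝ := Real.sqrt h * Real.sqrt (Real.sqrt h)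

lemma w_nonneg (h : ℕ) : 0 ≤ w h := by unfold w; positivity

lemma w_sq (h : ℕ) : w h ^ 2 = h * Real.sqrt h := by
  rw [w, mul_pow, Real.sq_sqrt (Nat.cast_nonneg h), Real.sq_sqrt (Real.sqrt_nonneg _)]

/-- The badness of `g` for the set `A`. -/
noncomputable def bad (A : Finset ℕ) (g : ℕ) : ℝ :=
  ∑ h ∈ g.divisors.erase 1, w h * coll A h / (A.card : ℝ) ^ 2

/-- If `g` is not bad, `g` divides some `a b + c + d`. -/
lemma cover (A : Finset ℕ) (hA : A.Nonempty) (g : ℕ) (hg : 0 < g) (hbad : bad A g < 1) :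
    ∃ a ∈ A, ∃ b ∈ A, ∃ c ∈ A, ∃ d ∈ A, g ∣ a * b + c + d := by
  classical
  by_contra hno
  simp only [not_exists, not_and] at hno
  have : NeZero g := ⟨hg.ne'⟩
  have hsplit : ∀ t : ℕ, F2 A g t * F1 A g t ^ 2
      = ∑ a ∈ A, ∑ b ∈ A, ∑ c ∈ A, ∑ d ∈ A,
          ZMod.stdAddChar ((t : ZMod g) * ((a * b + c + d : ℕ) : ZMod g)) := by
    intro t
    simp only [F2, F1, ee_eq]
    rw [sq, Finset.sum_mul]
    refine Finset.sum_congr rfl fun a _ => ?_
    rw [Finset.sum_mul]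
    refine Finset.sum_congr rfl fun b _ => ?_
    rw [Finset.sum_mul_sum, Finset.mul_sum]
    refine Finset.sum_congr rfl fun c _ => ?_
    rw [Finset.mul_sum]
    refine Finset.sum_congr rfl fun d _ => ?_
    rw [← AddChar.map_add_eq_mul, ← AddChar.map_add_eq_mul]
    congr 1
    push_cast
    ring
  have hzero : ∑ t ∈ Finset.range g, F2 A g t * F1 A g t ^ 2 = 0 := by
    rw [Finset.sum_congr rfl fun t _ => hsplit t, Finset.sum_comm]
    refine Finset.sum_eq_zero fun a ha => ?_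
    rw [Finset.sum_comm]
    refine Finset.sum_eq_zero fun b hb => ?_
    rw [Finset.sum_comm]
    refine Finset.sum_eq_zero fun c hc => ?_
    rw [Finset.sum_comm]
    refine Finset.sum_eq_zero fun d hd => ?_
    rw [show ∑ t ∈ Finset.range g, ZMod.stdAddChar ((t : ZMod g) * ((a * b + c + d : ℕ) : ZMod g))
        = ∑ x : ZMod g, ZMod.stdAddChar (x * ((a * b + c + d : ℕ) : ZMod g)) from ?_,
      AddChar.sum_mulShift _ (ZMod.isPrimitive_stdAddChar g), if_neg, Nat.cast_zero]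
    · rw [ZMod.natCast_eq_zero_iff]; exact hno a ha b hb c hc d hd
    · refine Finset.sum_bij' (fun t _ => (t : ZMod g)) (fun r _ => r.val) (by simp)
        (fun r _ => Finset.mem_range.2 r.val_lt) ?_ ?_ ?_
      · intro t ht; exact ZMod.val_cast_of_lt (Finset.mem_range.1 ht)
      · intro r _; exact ZMod.natCast_zmod_val r
      · intro t _; rfl
  have hmain : F2 A g 0 * F1 A g 0 ^ 2 = ((A.card : ℝ) ^ 4 : ℝ) := by
    simp only [F2, F1, ee, zero_mul, Nat.cast_zero, mul_zero, zero_div, Complex.exp_zero,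
      Finset.sum_const, nsmul_eq_mul, mul_one]
    push_cast; ring
  rw [← Finset.add_sum_erase _ _ (Finset.mem_range.2 hg), hmain, add_eq_zero_iff_eq_neg] at hzero
  have hnorm : (A.card : ℝ) ^ 4
      ≤ ∑ t ∈ (Finset.range g).erase 0, ‖F2 A g t‖ * ‖F1 A g t‖ ^ 2 := by
    have := congrArg norm hzero
    rw [norm_neg, Complex.norm_real, Real.norm_eq_abs, abs_of_nonneg (by positivity)] at this
    rw [this]
    refine (norm_sum_le _ _).trans (le_of_eq ?_)
    refine Finset.sum_congr rfl fun t _ => ?_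
    rw [norm_mul, norm_pow]
  -- sort the nonzero frequencies by their order
  set S := (g.divisors.erase 1).sigma fun h => (Finset.range h).filter (fun t => Nat.Coprime t h)
    with hS
  have hlevel : ∑ t ∈ (Finset.range g).erase 0, ‖F2 A g t‖ * ‖F1 A g t‖ ^ 2
      ≤ ∑ x ∈ S, ‖F2 A x.1 x.2‖ * ‖F1 A x.1 x.2‖ ^ 2 := by
    set φ : ℕ → (Σ _ : ℕ, ℕ) := fun t => ⟨g / Nat.gcd t g, t / Nat.gcd t g⟩
    have hφ : ∀ t ∈ (Finset.range g).erase 0, φ t ∈ S ∧
        ‖F2 A g t‖ * ‖F1 A g t‖ ^ 2 = ‖F2 A (φ t).1 (φ t).2‖ * ‖F1 A (φ t).1 (φ t).2‖ ^ 2 ∧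
        t = g / (φ t).1 * (φ t).2 := by
      intro t ht
      simp only [Finset.mem_erase, Finset.mem_range] at ht
      have hd : 0 < Nat.gcd t g := Nat.gcd_pos_of_pos_right _ hg
      obtain ⟨t', h', hco, e1, e2⟩ := Nat.exists_coprime t g
      have q1 : t / Nat.gcd t g = t' := Nat.div_eq_of_eq_mul_left hd e1
      have q2 : g / Nat.gcd t g = h' := Nat.div_eq_of_eq_mul_left hd e2
      have hh : 0 < h' := by
        rcases Nat.eq_zero_or_pos h' with h0 | h0
        · rw [h0, zero_mul] at e2; omega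
        · exact h0
      have hlt : t' < h' := by
        have : t' * Nat.gcd t g < h' * Nat.gcd t g := by rw [← e1, ← e2]; exact ht.2
        exact Nat.lt_of_mul_lt_mul_right this
      have hne : h' ≠ 1 := by
        intro h1
        have : t' = 0 := by omega
        rw [this, zero_mul] at e1
        exact ht.1 e1
      refine ⟨?_, ?_, ?_⟩
      · simp only [φ, hS, q1, q2, Finset.mem_sigma, Finset.mem_erase, Nat.mem_divisors,
          Finset.mem_filter, Finset.mem_range]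
        exact ⟨⟨hne, ⟨⟨Nat.gcd t g, e2⟩, hg.ne'⟩⟩, hlt, hco⟩
      · simp only [φ, q1, q2]
        have key : ∀ n, ee g (t * n) = ee h' (t' * n) := by
          intro n
          calc ee g (t * n) = ee (Nat.gcd t g * h') (Nat.gcd t g * t' * n) := by
                rw [mul_comm (Nat.gcd t g) h', mul_comm (Nat.gcd t g) t', ← e1, ← e2]
            _ = ee h' (t' * n) := ee_scale _ _ _ _ hd
        simp only [F1, F2, key]
      · simp only [φ, q1, q2]
        have q3 : g / h' = Nat.gcd t g := Nat.div_eq_of_eq_mul_left hh (by rw [mul_comm, ← e2])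
        rw [q3, mul_comm, ← e1]
    calc _ = ∑ t ∈ (Finset.range g).erase 0,
          ‖F2 A (φ t).1 (φ t).2‖ * ‖F1 A (φ t).1 (φ t).2‖ ^ 2 :=
          Finset.sum_congr rfl fun t ht => (hφ t ht).2.1
      _ = ∑ x ∈ ((Finset.range g).erase 0).image φ, ‖F2 A x.1 x.2‖ * ‖F1 A x.1 x.2‖ ^ 2 := by
          rw [Finset.sum_image]
          intro x hx y hy hxy
          rw [(hφ x hx).2.2, (hφ y hy).2.2, hxy]
      _ ≤ _ := by
          refine Finset.sum_le_sum_of_subset_of_nonneg ?_ fun _ _ _ => by positivity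
          intro x hx
          obtain ⟨t, ht, rfl⟩ := Finset.mem_image.1 hx
          exact (hφ t ht).1
  have hfin : ∑ x ∈ S, ‖F2 A x.1 x.2‖ * ‖F1 A x.1 x.2‖ ^ 2
      ≤ ∑ h ∈ g.divisors.erase 1, (w h * coll A h) ^ 2 := by
    rw [hS, Finset.sum_sigma]
    refine Finset.sum_le_sum fun h hh => ?_
    have hh0 : 0 < h := Nat.pos_of_mem_divisors (Finset.mem_of_mem_erase hh)
    have : NeZero h := ⟨hh0.ne'⟩
    refine (level_bound A h).trans (le_of_eq ?_)
    rw [mul_pow, w_sq]; ring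
  have hsq : ∑ h ∈ g.divisors.erase 1, (w h * coll A h) ^ 2
      ≤ (∑ h ∈ g.divisors.erase 1, w h * coll A h) ^ 2 :=
    Finset.sum_sq_le_sq_sum_of_nonneg fun h _ => mul_nonneg (w_nonneg h) (Nat.cast_nonneg _)
  have hc : (0 : ℝ) < (A.card : ℝ) ^ 2 := by
    have := hA.card_pos; positivity
  rw [bad, ← Finset.sum_div, div_lt_one hc] at hbad
  have h0 : 0 ≤ ∑ h ∈ g.divisors.erase 1, w h * coll A h :=
    Finset.sum_nonneg fun h _ => mul_nonneg (w_nonneg h) (Nat.cast_nonneg _)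
  have := pow_lt_pow_left₀ hbad h0 two_ne_zero
  have : ((A.card : ℝ) ^ 2) ^ 2 = (A.card : ℝ) ^ 4 := by ring
  linarith

end Vale.Agent.P012
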