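import Vale.Agent.P012.Units
import Vale.Agent.P012.Average

namespace Vale.Agent.P012

open Finset

lemma pow_beats (C n : ℕ) : ∃ s0, ∀ s ≥ s0, C * s ^ n ≤ 2 ^ s := by
  have h := (tendsto_pow_const_div_const_pow_of_one_lt n (show (1 : ℝ) < 2 by norm_num)).eventually_lt_const
    (show (0 : ℝ) < 1 / ((C : ℝ) + 1) by positivity)
  obtain ⟨s0, hs0⟩ := Filter.eventually_atTop.1 h
  refine ⟨s0, fun s hs => ?_⟩
  have := hs0 s hs
  rw [div_lt_div_iff₀ (by positivity) (by positivity), one_mul] at this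
  have h1 : (C : ℝ) * (s : ℝ) ^ n ≤ 2 ^ s := by
    nlinarith [pow_nonneg (Nat.cast_nonneg (α := ℝ) s) n]
  exact_mod_cast h1

lemma two_pow_le_choose (k : ℕ) : 2 ^ k ≤ (2 * k).choose k := by
  induction k with
  | zero => simp
  | succ k ih =>
    have h := Nat.succ_mul_centralBinom_succ k
    rw [Nat.centralBinom_eq_two_mul_choose, Nat.centralBinom_eq_two_mul_choose] at h
    refine Nat.le_of_mul_le_mul_left ?_ (Nat.succ_pos k)
    rw [h, pow_succ]
    calc (k + 1) * (2 ^ k * 2) = 2 * (k + 1) * 2 ^ k := by ring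
      _ ≤ 2 * (2 * k + 1) * (2 * k).choose k := by gcongr; omega

lemma digits_eq (G x : ℕ) : ∀ T, x % 2 ^ (T * G)
    = ∑ i ∈ range T, x / 2 ^ (i * G) % 2 ^ G * 2 ^ (i * G) := by
  intro T
  induction T with
  | zero => simp [Nat.mod_one]
  | succ T ih =>
    rw [Finset.sum_range_succ, ← ih, Nat.succ_mul, pow_add, Nat.mod_mul]
    ring

/-- `g` divides a sum `a b + c + d` over `A`. -/
def Good (A : Finset ℕ) (g : ℕ) : Prop := ∃ a ∈ A, ∃ b ∈ A, ∃ c ∈ A, ∃ d ∈ A, g ∣ a * b + c + d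

lemma good_rep (A : Finset ℕ) (g B : ℕ) (hg : Good A g) (hA : ∀ a ∈ A, 0 < a) (hB : 0 < B)
    (hdiv : ∀ a ∈ A, ∀ b ∈ A, a * b ∣ B) (hdiv1 : ∀ a ∈ A, a ∣ B) :
    Rep 3 ((g : ℚ) / B) := by
  obtain ⟨a, ha, b, hb, c, hc, d, hd, K, hK⟩ := hg
  have hK0 : 0 < K := by
    rcases Nat.eq_zero_or_pos K with rfl | h
    · have := hA c hc; omega
    · exact h
  have hab : 0 < a * b := Nat.mul_pos (hA a ha) (hA b hb)
  obtain ⟨m1, e1⟩ := hdiv a ha b hb
  obtain ⟨m2, e2⟩ := hdiv1 c hc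
  obtain ⟨m3, e3⟩ := hdiv1 d hd
  have p1 : 0 < m1 := Nat.pos_of_ne_zero fun h => by simp [h] at e1; omega
  have p2 : 0 < m2 := Nat.pos_of_ne_zero fun h => by simp [h] at e2; omega
  have p3 : 0 < m3 := Nat.pos_of_ne_zero fun h => by simp [h] at e3; omega
  have key : (g : ℚ) / B
      = 1 / ((K * m1 : ℕ) : ℚ) + 1 / ((K * m2 : ℕ) : ℚ) + 1 / ((K * m3 : ℕ) : ℚ) := by
    have hK' : ((a * b + c + d : ℕ) : ℚ) = (g : ℚ) * K := by rw [hK]; push_cast; ring
    have hKq : (K : ℚ) ≠ 0 := Nat.cast_ne_zero.2 hK0.ne'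
    have f : ∀ x m : ℕ, B = x * m → 0 < x → 1 / ((K * m : ℕ) : ℚ) = (x : ℚ) / (K * B) := by
      intro x m e hx
      have hxq : (x : ℚ) ≠ 0 := Nat.cast_ne_zero.2 hx.ne'
      have hmq : (m : ℚ) ≠ 0 := Nat.cast_ne_zero.2 (Nat.pos_of_ne_zero fun h => by
        simp [h] at e; omega).ne'
      rw [e]; push_cast; field_simp
    rw [f _ _ e1 hab, f _ _ e2 (hA c hc), f _ _ e3 (hA d hd), ← add_div, ← add_div,
      show ((a * b : ℕ) : ℚ) + (c : ℚ) + (d : ℚ) = ((a * b + c + d : ℕ) : ℚ) by push_cast; ring, hK']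
    have hBq : (B : ℚ) ≠ 0 := Nat.cast_ne_zero.2 hB.ne'
    field_simp
  rw [key]
  exact ((Rep.unit (Nat.mul_pos hK0 p1)).add (Rep.unit (Nat.mul_pos hK0 p2))).add
    (Rep.unit (Nat.mul_pos hK0 p3))

/-- Every digit over a denominator divisible by `Q` costs six unit fractions. -/
def Digit (G Q : ℕ) : Prop := ∀ c B : ℕ, c < 2 ^ G → Q ∣ B → 0 < B → Rep 6 ((c : ℚ) / B)

lemma digit_of_split (A : Finset ℕ) (G Q : ℕ) (hA : ∀ a ∈ A, 0 < a)
    (hdiv : ∀ a ∈ A, ∀ b ∈ A, a * b ∣ Q) (hdiv1 : ∀ a ∈ A, a ∣ Q)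
    (hsplit : ∀ W, Even W → 2 ^ G ≤ W → W < 2 ^ (G + 1) →
      ∃ f, f < W ∧ Good A f ∧ Good A (W - f)) : Digit G Q := by
  intro c B hc hQ hB
  rcases Nat.eq_zero_or_pos c with rfl | hc0
  · simpa using Rep.zero 6
  have hl : Nat.log 2 c < G := Nat.log_lt_of_lt_pow hc0.ne' hc
  set e := G - Nat.log 2 c with he
  have he1 : 1 ≤ e := by omega
  have hle : Nat.log 2 c + e = G := by omega
  set W := c * 2 ^ e with hW
  have hW1 : 2 ^ G ≤ W := by
    rw [← hle, pow_add]; exact Nat.mul_le_mul_right _ (Nat.pow_log_le_self 2 hc0.ne')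
  have hW2 : W < 2 ^ (G + 1) := by
    rw [← hle, show Nat.log 2 c + e + 1 = (Nat.log 2 c + 1) + e by ring, pow_add]
    exact Nat.mul_lt_mul_of_pos_right (Nat.lt_pow_succ_log_self one_lt_two c) (by positivity)
  have hWe : Even W := (Nat.even_pow.2 ⟨even_two, by omega⟩).mul_left c
  obtain ⟨f, hf, hf1, hf2⟩ := hsplit W hWe hW1 hW2
  have hB' : 0 < B * 2 ^ e := by positivity
  have hd : ∀ x, x ∣ Q → x ∣ B * 2 ^ e := fun x hx => dvd_mul_of_dvd_left (hx.trans hQ) _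
  have r1 := good_rep A f _ hf1 hA hB' (fun a ha b hb => hd _ (hdiv a ha b hb))
    (fun a ha => hd _ (hdiv1 a ha))
  have r2 := good_rep A (W - f) _ hf2 hA hB' (fun a ha b hb => hd _ (hdiv a ha b hb))
    (fun a ha => hd _ (hdiv1 a ha))
  have hBq : (B : ℚ) ≠ 0 := Nat.cast_ne_zero.2 hB.ne'
  have : (c : ℚ) / B
      = (f : ℚ) / ((B * 2 ^ e : ℕ) : ℚ) + ((W - f : ℕ) : ℚ) / ((B * 2 ^ e : ℕ) : ℚ) := by
    rw [← add_div, Nat.cast_sub hf.le, add_sub_cancel, hW]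
    push_cast
    field_simp
  rw [this]
  exact r1.add r2

lemma Digit.number {G Q : ℕ} (h : Digit G Q) (T x B : ℕ) (hx : x < 2 ^ (T * G)) (hQ : Q ∣ B)
    (hB : 0 < B) : Rep (6 * T) ((x : ℚ) / ((B * 2 ^ (T * G) : ℕ) : ℚ)) := by
  have e : (x : ℚ) / ((B * 2 ^ (T * G) : ℕ) : ℚ) = ∑ i ∈ range T,
      ((x / 2 ^ (i * G) % 2 ^ G : ℕ) : ℚ) / ((B * 2 ^ ((T - i) * G) : ℕ) : ℚ) := by
    conv_lhs => rw [← Nat.mod_eq_of_lt hx, digits_eq G x T]
    rw [Nat.cast_sum, Finset.sum_div]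
    refine Finset.sum_congr rfl fun i hi => ?_
    rw [Finset.mem_range] at hi
    have : T * G = (T - i) * G + i * G := by rw [← add_mul, Nat.sub_add_cancel hi.le]
    rw [this, pow_add]
    have hBq : (B : ℚ) ≠ 0 := Nat.cast_ne_zero.2 hB.ne'
    push_cast
    field_simp
  rw [e]
  exact Rep.sum_range 6 T _ fun i _ => h _ _ (Nat.mod_lt _ (by positivity))
    (dvd_mul_of_dvd_left hQ _) (by positivity)

lemma greedy (b Lam : ℕ) (hb : 0 < b) : ∀ R a D : ℕ, a < b → 1 ≤ D → D ≤ 2 ^ (2 * Lam) →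
    2 ^ 2 ^ R * (2 ^ Lam + 1) ≤ (2 * D + 1) ^ 2 ^ R →
    ∃ a' D', a' < b ∧ 1 ≤ D' ∧ D' ≤ 2 ^ (2 * Lam) ∧ a' * 2 ^ Lam < b * D' ∧
      Rep R ((a : ℚ) / ((b * D : ℕ) : ℚ) - (a' : ℚ) / ((b * D' : ℕ) : ℚ)) := by
  intro R
  induction R with
  | zero =>
    intro a D ha hD hD2 hbig
    simp only [pow_zero, pow_one] at hbig
    refine ⟨a, D, ha, hD, hD2, ?_, by simpa using Rep.zero 0⟩
    calc a * 2 ^ Lam < b * 2 ^ Lam := Nat.mul_lt_mul_of_pos_right ha (by positivity)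
      _ ≤ b * D := Nat.mul_le_mul_left _ (by omega)
  | succ R ih =>
    intro a D ha hD hD2 hbig
    by_cases hdone : a * 2 ^ Lam < b * D
    · exact ⟨a, D, ha, hD, hD2, hdone, by simpa using Rep.zero _⟩
    rw [not_lt] at hdone
    have ha0 : 0 < a := by
      rcases Nat.eq_zero_or_pos a with rfl | h
      · simp at hdone; omega
      · exact h
    -- `n` is the ceiling of `b D / a`
    set n := (b * D + a - 1) / a with hn
    have hn1 : b * D ≤ a * n := by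
      have h1 := Nat.lt_mul_div_succ (b * D + a - 1) ha0
      rw [← hn, mul_add, mul_one] at h1
      omega
    have hn2 : a * n < b * D + a := by
      have := Nat.mul_div_le (b * D + a - 1) a
      rw [← hn] at this
      omega
    have hnD : D + 1 ≤ n := by
      by_contra hc
      have : a * n ≤ a * D := Nat.mul_le_mul_left _ (by omega)
      have : a * D < b * D := Nat.mul_lt_mul_of_pos_right ha (by omega)
      omega
    have hnL : n ≤ 2 ^ Lam := by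
      by_contra hc
      have : a * (2 ^ Lam + 1) ≤ a * n := Nat.mul_le_mul_left _ (by omega)
      rw [mul_add, mul_one] at this
      omega
    have hDL : D ≤ 2 ^ Lam := by omega
    have hD' : n * D ≤ 2 ^ (2 * Lam) := by
      rw [two_mul, pow_add]; exact Nat.mul_le_mul hnL hDL
    have hstep : 2 ^ 2 ^ R * (2 ^ Lam + 1) ≤ (2 * (n * D) + 1) ^ 2 ^ R := by
      refine Nat.le_of_mul_le_mul_left ?_ (show 0 < 2 ^ 2 ^ R by positivity)
      calc 2 ^ 2 ^ R * (2 ^ 2 ^ R * (2 ^ Lam + 1))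
          = 2 ^ 2 ^ (R + 1) * (2 ^ Lam + 1) := by
            rw [← mul_assoc, ← pow_add, ← two_mul, ← pow_succ']
        _ ≤ (2 * D + 1) ^ 2 ^ (R + 1) := hbig
        _ = ((2 * D + 1) ^ 2) ^ 2 ^ R := by rw [← pow_mul, ← pow_succ']
        _ ≤ (2 * (2 * (n * D) + 1)) ^ 2 ^ R := by
            refine Nat.pow_le_pow_left ?_ _
            nlinarith [Nat.mul_le_mul_right D hnD]
        _ = _ := by rw [mul_pow]
    obtain ⟨a', D', h1, h2, h3, h4, h5⟩ := ih (a * n - b * D) (n * D) (by omega)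
      (Nat.mul_pos (by omega) (by omega)) hD' hstep
    refine ⟨a', D', h1, h2, h3, h4, ?_⟩
    have hnq : (n : ℚ) ≠ 0 := Nat.cast_ne_zero.2 (by omega)
    have hbq : (b : ℚ) ≠ 0 := Nat.cast_ne_zero.2 hb.ne'
    have hDq : (D : ℚ) ≠ 0 := Nat.cast_ne_zero.2 (by omega)
    have e : (a : ℚ) / ((b * D : ℕ) : ℚ) - (a' : ℚ) / ((b * D' : ℕ) : ℚ)
        = 1 / (n : ℚ) + (((a * n - b * D : ℕ) : ℚ) / ((b * (n * D) : ℕ) : ℚ)
          - (a' : ℚ) / ((b * D' : ℕ) : ℚ)) := by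
      rw [Nat.cast_sub hn1, ← add_sub_assoc]
      congr 1
      push_cast
      field_simp
      ring
    rw [e, add_comm R 1]
    exact (Rep.unit (by omega)).add h5

/-- All the numerical requirements on the scale parameter `s`. -/
def Big (s : ℕ) : Prop :=
  36 ≤ s ∧ (3 ^ 40 * 16 ^ 40 * 1000000) * s ^ 40 ≤ 2 ^ s

lemma exists_big : ∃ s0, ∀ s ≥ s0, Big s := by
  obtain ⟨s0, h⟩ := pow_beats (3 ^ 40 * 16 ^ 40 * 1000000) 40
  exact ⟨max s0 36, fun s hs => ⟨le_trans (le_max_right _ _) hs, h s (le_trans (le_max_left _ _) hs)⟩⟩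

lemma le_const_pow (s : ℕ) (hs : 1 ≤ s) (C n : ℕ) (hC : C ≤ 3 ^ 40 * 16 ^ 40 * 1000000) (hn : n ≤ 40)
    (h : Big s) : C * s ^ n ≤ 2 ^ s :=
  (Nat.mul_le_mul hC (Nat.pow_le_pow_right hs hn)).trans h.2

/-- The bundle of parameter inequalities used by the construction. -/
lemma params (L s G : ℕ) (hbig : Big s) (hL1 : 2 ^ (s - 1) ≤ L) (hL2 : L < 2 ^ s)
    (hG : G = L / s + 1) :
    let k := 3 * (G + 1)
    let K := 3 ^ 24 * (16 * s) ^ 24
    1 ≤ G ∧ L ≤ s * G ∧ s * (G + 1) ≤ 3 * 2 ^ s ∧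
      2 * K * (3 ^ 16 * (16 * s) ^ 16) ≤ 2 ^ (2 * s + 1) ∧
      4 * K * 2 ^ ((16 * s + 2) * (2 * s + 1)) ≤ 2 ^ G ∧
      64 * K * (4 * s * k + 1) ≤ 2 ^ (4 * s) ∧
      2 * k * (4 * s) + 4 * s + 1 ≤ 2 ^ (4 * s) := by
  intro k K
  have hs : 36 ≤ s := hbig.1
  have hLG : L ≤ s * G := by
    rw [hG]; exact (Nat.lt_mul_div_succ L (by omega)).le
  have hsl : s ≤ 2 ^ s := Nat.lt_two_pow_self.le
  have hsG : s * (G + 1) ≤ 3 * 2 ^ s := by
    rw [hG, mul_add, mul_add, mul_one]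
    have := Nat.mul_div_le L s
    omega
  have hK : K = 3 ^ 24 * 16 ^ 24 * s ^ 24 := by simp only [K, mul_pow]; ring
  have b24 : 4 * K ≤ 2 ^ s := by
    rw [hK, ← mul_assoc]
    exact le_const_pow s (by omega) _ 24 (by norm_num) (by norm_num) hbig
  refine ⟨by rw [hG]; exact Nat.le_add_left 1 _, hLG, hsG, ?_, ?_, ?_, ?_⟩
  · calc 2 * K * (3 ^ 16 * (16 * s) ^ 16) = (2 * 3 ^ 40 * 16 ^ 40) * s ^ 40 := by
          rw [hK]; ring
      _ ≤ 2 ^ s := le_const_pow s (by omega) _ 40 (by norm_num) le_rfl hbig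
      _ ≤ 2 ^ (2 * s + 1) := Nat.pow_le_pow_right two_pos (by omega)
  · have hexp : s + (16 * s + 2) * (2 * s + 1) ≤ G := by
      have h3 : 2 * (s * (s + (16 * s + 2) * (2 * s + 1))) ≤ 2 ^ s := by
        refine le_trans ?_ (le_const_pow s (by omega) 200 3 (by norm_num) (by norm_num) hbig)
        nlinarith [Nat.mul_le_mul hs hs]
      have h4 : 2 ^ s = 2 * 2 ^ (s - 1) := by
        rw [← pow_succ']; congr 1; omega
      have : s * (s + (16 * s + 2) * (2 * s + 1)) ≤ s * G := by linarith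
      exact Nat.le_of_mul_le_mul_left this (by omega)
    calc 4 * K * 2 ^ ((16 * s + 2) * (2 * s + 1)) ≤ 2 ^ s * 2 ^ ((16 * s + 2) * (2 * s + 1)) :=
          Nat.mul_le_mul_right _ b24
      _ = 2 ^ (s + (16 * s + 2) * (2 * s + 1)) := (pow_add _ _ _).symm
      _ ≤ 2 ^ G := Nat.pow_le_pow_right two_pos hexp
  · have hz : 4 * s * k + 1 ≤ 37 * 2 ^ s := by
      have : 4 * s * k = 12 * (s * (G + 1)) := by simp only [k]; ring
      have := Nat.one_le_two_pow (n := s)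
      omega
    calc 64 * K * (4 * s * k + 1) ≤ 64 * K * (37 * 2 ^ s) := Nat.mul_le_mul_left _ hz
      _ = (4 * K) * (592 * 2 ^ s) := by ring
      _ ≤ 2 ^ s * (2 ^ s * 2 ^ s) := by
          refine Nat.mul_le_mul b24 (Nat.mul_le_mul_right _ ?_)
          calc 592 ≤ 2 ^ 10 := by norm_num
            _ ≤ 2 ^ s := Nat.pow_le_pow_right two_pos (by omega)
      _ = 2 ^ (3 * s) := by ring
      _ ≤ 2 ^ (4 * s) := Nat.pow_le_pow_right two_pos (by omega)
  · have : 2 * k * (4 * s) + 4 * s + 1 ≤ 128 * 2 ^ s := by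
      have : 2 * k * (4 * s) = 24 * (s * (G + 1)) := by simp only [k]; ring
      have := Nat.one_le_two_pow (n := s)
      omega
    calc 2 * k * (4 * s) + 4 * s + 1 ≤ 128 * 2 ^ s := this
      _ = 2 ^ (7 + s) := by rw [pow_add]; norm_num
      _ ≤ 2 ^ (4 * s) := Nat.pow_le_pow_right two_pos (by omega)

/-- The pool modulus and its digit property. -/
lemma exists_digit (L s G : ℕ) (hbig : Big s) (hL1 : 2 ^ (s - 1) ≤ L) (hL2 : L < 2 ^ s)
    (hG : G = L / s + 1) :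
    ∃ Q, 0 < Q ∧ Q ≤ 2 ^ (48 * (s * (G + 1))) ∧ Digit G Q := by
  obtain ⟨hG1, -, -, c1, c2, c3, c4⟩ := params L s G hbig hL1 hL2 hG
  set k := 3 * (G + 1) with hk
  set K := 3 ^ 24 * (16 * s) ^ 24 with hK
  have hs : 36 ≤ s := hbig.1
  have hcount : 2 * k ≤ (Nat.primesLE (2 ^ (4 * s))).card := by
    have := primes_many (4 * s)
    refine Nat.le_of_mul_le_mul_right ?_ (show 0 < 4 * s by omega)
    omega
  obtain ⟨P, hPsub, hPcard⟩ := Finset.exists_subset_card_eq hcount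
  have hPp : ∀ p ∈ P, p.Prime := fun p hp => (Nat.mem_primesLE.1 (hPsub hp)).2
  have hPle : ∀ p ∈ P, p ≤ 2 ^ (4 * s) := fun p hp => (Nat.mem_primesLE.1 (hPsub hp)).1
  set A := (P.powersetCard k).image (fun T => ∏ p ∈ T, p) with hA
  have hAmem : ∀ a ∈ A, 0 < a ∧ a ∣ ∏ p ∈ P, p ∧ a < 2 ^ (4 * s * k + 1) := by
    intro a ha
    obtain ⟨T, hT, rfl⟩ := Finset.mem_image.1 ha
    obtain ⟨hTs, hTc⟩ := Finset.mem_powersetCard.1 hT
    refine ⟨Finset.prod_pos fun p hp => (hPp p (hTs hp)).pos,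
      Finset.prod_dvd_prod_of_subset _ _ _ hTs, ?_⟩
    calc ∏ p ∈ T, p ≤ (2 ^ (4 * s)) ^ T.card :=
          Finset.prod_le_pow_card _ _ _ fun p hp => hPle p (hTs hp)
      _ = 2 ^ (4 * s * k) := by rw [hTc, ← pow_mul]
      _ < _ := Nat.pow_lt_pow_right one_lt_two (by omega)
  have hAcard : 2 ^ (3 * (G + 1)) ≤ A.card := by
    rw [hA, Finset.card_image_of_injOn, Finset.card_powersetCard, hPcard]
    · exact two_pow_le_choose k
    · intro T hT T' hT' e
      have hT := (Finset.mem_powersetCard.1 (Finset.mem_coe.1 hT)).1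
      have hT' := (Finset.mem_powersetCard.1 (Finset.mem_coe.1 hT')).1
      rw [← Nat.primeFactors_prod (fun p hp => hPp p (hT hp)),
        ← Nat.primeFactors_prod (fun p hp => hPp p (hT' hp))]
      exact congrArg Nat.primeFactors e
  have hAne : A.Nonempty := Finset.card_pos.1 (lt_of_lt_of_le (by positivity) hAcard)
  refine ⟨(∏ p ∈ P, p) * (∏ p ∈ P, p), ?_, ?_, ?_⟩
  · have := Finset.prod_pos fun p hp => (hPp p hp).pos
    positivity
  · have : ∏ p ∈ P, p ≤ (2 ^ (4 * s)) ^ (2 * k) := by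
      rw [← hPcard]; exact Finset.prod_le_pow_card _ _ _ hPle
    refine (Nat.mul_le_mul this this).trans (le_of_eq ?_)
    rw [← pow_mul, ← pow_add]; congr 1; rw [hk]; ring
  refine digit_of_split A G _ (fun a ha => (hAmem a ha).1)
    (fun a ha b hb => Nat.mul_dvd_mul (hAmem a ha).2.1 (hAmem b hb).2.1)
    (fun a ha => dvd_mul_of_dvd_left (hAmem a ha).2.1 _) ?_
  intro W hWe hW1 hW2
  obtain ⟨F, hF, hFcard⟩ := rough_count W (16 * s) (2 * s + 1) G K ⟨s, rfl⟩ (by omega) hWe hW1 hK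
    c1 c2
  rw [show 16 * s = 4 * (4 * s) by ring] at hF
  have hKpos : (0 : ℝ) < K := by
    rw [hK]; push_cast
    have : (0:ℝ) < s := by exact_mod_cast (show 0 < s by omega)
    positivity
  have hzy : 64 * (K : ℝ) * ((4 * s * k + 1 : ℕ) : ℝ) * (1 / 2 : ℝ) ^ (4 * s) ≤ 1 := by
    rw [one_div_pow, mul_one_div, div_le_one (by positivity)]
    exact_mod_cast c3
  have hK1 : (1 : ℝ) ≤ K := by
    have : 1 ≤ K := by rw [hK]; exact Nat.mul_pos (by positivity) (pow_pos (by omega) _)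
    exact_mod_cast this
  set z := 4 * s * k + 1
  set ε := (1 / 2 : ℝ) ^ (4 * s) with hε
  have hε0 : 0 ≤ (z : ℝ) * ε := by positivity
  have hsmall : (z : ℝ) * ε ≤ 1 / 2 := by nlinarith
  have a1 := avg A hAne F id W (4 * s) z G hW2 hAcard (fun a ha => (hAmem a ha).2.2) hsmall
    (fun f hf => ⟨(hF f hf).1, (hF f hf).2.1, (hF f hf).2.2.1⟩) (fun f _ f' _ e => e)
  have a2 := avg A hAne F (fun f => W - f) W (4 * s) z G hW2 hAcard
    (fun a ha => (hAmem a ha).2.2) hsmall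
    (fun f hf => by
      obtain ⟨h1, h2, -, h4⟩ := hF f hf
      exact ⟨by omega, by omega, h4⟩)
    (fun f hf f' hf' e => by
      have h1 := (hF f hf).2.1
      have h2 := (hF f' hf').2.1
      omega)
  have hhalf : (1 / 2 : ℝ) ^ (G + 1) ≤ 1 / 4 := by
    calc (1 / 2 : ℝ) ^ (G + 1) ≤ (1 / 2) ^ 2 :=
          pow_le_pow_of_le_one (by norm_num) (by norm_num) (by omega)
      _ = 1 / 4 := by norm_num
  have hWpos : (0 : ℝ) < W := by
    have : 0 < W := lt_of_lt_of_le (by positivity) hW1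
    exact_mod_cast this
  have hFpos : (0 : ℝ) < F.card := lt_of_lt_of_le (by positivity) hFcard
  rw [div_le_iff₀ (by positivity)] at hFcard
  have hkey : (W : ℝ) * (2 * z * ε) ≤ (F.card : ℝ) / 8 := by
    calc (W : ℝ) * (2 * z * ε) ≤ ((F.card : ℝ) * (4 * K)) * (2 * z * ε) :=
          mul_le_mul_of_nonneg_right hFcard (by positivity)
      _ = (F.card : ℝ) / 8 * (64 * K * z * ε) := by ring
      _ ≤ (F.card : ℝ) / 8 * 1 := mul_le_mul_of_nonneg_left hzy (by positivity)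
      _ = _ := mul_one _
  have hsum : ∑ f ∈ F, (bad A (id f) + bad A (W - f)) < ∑ _f ∈ F, (1 : ℝ) := by
    rw [Finset.sum_add_distrib, Finset.sum_const, nsmul_eq_mul, mul_one]
    have := mul_le_mul_of_nonneg_left hhalf hFpos.le
    linarith
  obtain ⟨f, hf, hlt⟩ := Finset.exists_lt_of_sum_lt hsum
  obtain ⟨f1, f2, -, -⟩ := hF f hf
  have hn : ∀ g, 0 ≤ bad A g := fun g =>
    Finset.sum_nonneg fun h _ => div_nonneg (mul_nonneg (w_nonneg h) (Nat.cast_nonneg _)) (by positivity)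
  have := hn (id f)
  have := hn (W - f)
  exact ⟨f, f2, cover A hAne f (by omega) (by simp only [id] at hlt this ⊢; linarith [hn f]),
    cover A hAne (W - f) (by omega) (by simp only [id] at hlt ⊢; linarith [hn f])⟩

/-- The upper bound in terms of the scale parameter. -/
lemma upper_s (a b : ℕ) (hab : a < b) (hbig : Big (Nat.log 2 (Nat.log 2 b + 1) + 1)) :
    Rep (3000 * (Nat.log 2 (Nat.log 2 b + 1) + 1)) ((a : ℚ) / b) := by
  set L := Nat.log 2 b + 1 with hL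
  set s := Nat.log 2 L + 1 with hsdef
  set G := L / s + 1 with hG
  have hL1 : 2 ^ (s - 1) ≤ L := by
    simp only [hsdef, Nat.add_sub_cancel]
    exact Nat.pow_log_le_self 2 (by omega)
  have hL2 : L < 2 ^ s := Nat.lt_pow_succ_log_self one_lt_two L
  obtain ⟨hG1, hLG, hsG, -, -, -, -⟩ := params L s G hbig hL1 hL2 hG
  obtain ⟨Q, hQ0, hQle, hdig⟩ := exists_digit L s G hbig hL1 hL2 hG
  have hs : 36 ≤ s := hbig.1
  set Lam := 48 * (s * (G + 1)) with hLam
  have hLam2 : Lam + 1 ≤ 2 ^ (s + 9) := by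
    have h9 : 2 ^ (s + 9) = 512 * 2 ^ s := by rw [pow_add]; norm_num [mul_comm]
    have := Nat.one_le_two_pow (n := s)
    omega
  have hinit : 2 ^ 2 ^ (s + 10) * (2 ^ Lam + 1) ≤ (2 * 1 + 1) ^ 2 ^ (s + 10) := by
    have hm : 2 ^ (s + 10) = 2 * 2 ^ (s + 9) := by rw [← pow_succ']
    rw [hm]
    calc 2 ^ (2 * 2 ^ (s + 9)) * (2 ^ Lam + 1)
        ≤ 2 ^ (2 * 2 ^ (s + 9)) * 2 ^ 2 ^ (s + 9) := by
          refine Nat.mul_le_mul_left _ (le_trans ?_ (Nat.pow_le_pow_right two_pos hLam2))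
          rw [pow_succ]
          have := Nat.one_le_two_pow (n := Lam)
          omega
      _ = 8 ^ 2 ^ (s + 9) := by
          rw [← pow_add, show (8 : ℕ) = 2 ^ 3 by norm_num, ← pow_mul]; ring_nf
      _ ≤ 9 ^ 2 ^ (s + 9) := Nat.pow_le_pow_left (by norm_num) _
      _ = (2 * 1 + 1) ^ (2 * 2 ^ (s + 9)) := by rw [pow_mul]; norm_num
  obtain ⟨a', D, ha', hD1, hD2, hfin, hrep⟩ := greedy b Lam (by omega) (s + 10) a 1 hab le_rfl
    Nat.one_le_two_pow hinit
  set T := 193 * s with hT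
  set J := T * G with hJ
  set b' := b * D with hb'
  have hb'0 : 0 < b' := Nat.mul_pos (by omega) hD1
  have hb'J : b' ≤ 2 ^ J := by
    calc b' ≤ 2 ^ L * 2 ^ (2 * Lam) :=
          Nat.mul_le_mul (Nat.lt_pow_succ_log_self one_lt_two b).le hD2
      _ = 2 ^ (L + 2 * Lam) := (pow_add _ _ _).symm
      _ ≤ 2 ^ J := by
          refine Nat.pow_le_pow_right two_pos ?_
          have : s * (G + 1) ≤ 2 * (s * G) := by
            calc s * (G + 1) ≤ s * (2 * G) := Nat.mul_le_mul_left _ (by omega)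
              _ = 2 * (s * G) := by ring
          have : J = 193 * (s * G) := by rw [hJ, hT]; ring
          omega
  set u := a' * (Q * 2 ^ J) / b'
  set r := a' * (Q * 2 ^ J) % b'
  have hu : u < 2 ^ J := by
    refine (Nat.div_lt_iff_lt_mul hb'0).2 ?_
    have : a' * Q < b' := lt_of_le_of_lt (Nat.mul_le_mul_left _ hQle) hfin
    calc a' * (Q * 2 ^ J) = (a' * Q) * 2 ^ J := by ring
      _ < b' * 2 ^ J := Nat.mul_lt_mul_of_pos_right this (by positivity)
      _ = 2 ^ J * b' := mul_comm _ _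
  have hr : r < 2 ^ J := lt_of_lt_of_le (Nat.mod_lt _ hb'0) hb'J
  have r1 := hdig.number T u Q hu (dvd_refl _) hQ0
  have r2 := hdig.number T r (b' * Q) hr (dvd_mul_left _ _) (Nat.mul_pos hb'0 hQ0)
  have hdm : b' * u + r = a' * (Q * 2 ^ J) := Nat.div_add_mod _ _
  have hb'q : (b' : ℚ) ≠ 0 := Nat.cast_ne_zero.2 hb'0.ne'
  have hQq : (Q : ℚ) ≠ 0 := Nat.cast_ne_zero.2 hQ0.ne'
  have e : (a' : ℚ) / (b' : ℚ) = (u : ℚ) / ((Q * 2 ^ (T * G) : ℕ) : ℚ)
      + (r : ℚ) / ((b' * Q * 2 ^ (T * G) : ℕ) : ℚ) := by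
    rw [← hJ]
    have hcast : (b' : ℚ) * u + r = a' * (Q * 2 ^ J) := by exact_mod_cast hdm
    push_cast
    field_simp
    linarith
  have := hrep.add (r1.add r2)
  rw [← e, mul_one] at this
  rw [sub_add_cancel] at this
  refine this.mono ?_
  omega

lemma loglog_lower (b : ℕ) (hb : 2 ≤ b) (S : Finset ℕ) (hS : ∀ n ∈ S, 2 ≤ n)
    (hsum : ∑ n ∈ S, 1 / (n : ℚ) = ((b - 1 : ℕ) : ℚ) / b) :
    (1 / 3 : ℝ) * Real.log (Real.log b) ≤ S.card := by
  have hbq : (0 : ℚ) < b := Nat.cast_pos.2 (by omega)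
  have hval : (S.1.map fun n : ℕ => 1 / (n : ℚ)).sum = 1 - 1 / (b : ℚ) := by
    have : (S.1.map fun n : ℕ => 1 / (n : ℚ)).sum = ∑ n ∈ S, 1 / (n : ℚ) := rfl
    rw [this, hsum, Nat.cast_sub (by omega), Nat.cast_one]
    field_simp
  have hlt : (S.1.map fun n : ℕ => 1 / (n : ℚ)).sum < ((1 : ℕ) : ℚ) / ((1 : ℕ) : ℚ) := by
    rw [hval]; simp only [Nat.cast_one, div_one]
    have : (0 : ℚ) < 1 / b := by positivity
    linarith
  have hg := gap S.card S.card le_rfl 1 1 S.1 one_pos one_pos le_rfl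
    (fun n hn => by have := hS n hn; omega) hlt
  rw [hval] at hg
  simp only [Nat.cast_one, div_one, sub_sub_cancel, mul_one] at hg
  have hk1 : 1 ≤ S.card := by
    rcases Nat.eq_zero_or_pos S.card with h | h
    · rw [Finset.card_eq_zero] at h
      rw [h, Finset.sum_empty] at hsum
      have : (0 : ℚ) < ((b - 1 : ℕ) : ℚ) / b := div_pos (Nat.cast_pos.2 (by omega)) hbq
      linarith
    · exact h
  have hbig : b ≤ (2 * (S.card + 1)) ^ 2 ^ S.card := by
    rw [one_div_le_one_div (by positivity) hbq] at hg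
    exact_mod_cast hg
  have hb2 : b ≤ 2 ^ 2 ^ (2 * S.card + 1) := by
    refine hbig.trans ((Nat.pow_le_pow_left (m := 2 ^ 2 ^ (S.card + 1)) ?_ _).trans ?_)
    · have h1 := Nat.lt_two_pow_self (n := S.card)
      calc 2 * (S.card + 1) ≤ 2 ^ (S.card + 1) := by rw [pow_succ']; omega
        _ ≤ 2 ^ 2 ^ (S.card + 1) := Nat.pow_le_pow_right two_pos Nat.lt_two_pow_self.le
    · rw [← pow_mul, ← pow_add]
      exact Nat.pow_le_pow_right two_pos (Nat.pow_le_pow_right two_pos (by omega))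
  have hlog : Real.log b ≤ (2 : ℝ) ^ (2 * S.card + 1) * Real.log 2 := by
    have := Real.log_le_log (by exact_mod_cast (show 0 < b by omega))
      (show (b : ℝ) ≤ ((2 ^ 2 ^ (2 * S.card + 1) : ℕ) : ℝ) by exact_mod_cast hb2)
    rw [Nat.cast_pow, Real.log_pow] at this
    push_cast at this
    linarith
  have hl2 : Real.log 2 ≤ 1 := by have := Real.log_two_lt_d9; linarith
  have hl2p : 0 ≤ Real.log 2 := Real.log_nonneg (by norm_num)
  have hlogpos : 0 < Real.log b := Real.log_pos (by exact_mod_cast (show 1 < b by omega))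
  have hpow : (0:ℝ) ≤ (2 : ℝ) ^ (2 * S.card + 1) := by positivity
  have h2 : Real.log (Real.log b) ≤ Real.log ((2 : ℝ) ^ (2 * S.card + 1)) :=
    Real.log_le_log hlogpos (hlog.trans (mul_le_of_le_one_right hpow hl2))
  rw [Real.log_pow] at h2
  have hc : (1 : ℝ) ≤ S.card := by exact_mod_cast hk1
  push_cast at h2
  nlinarith

theorem egyptian_order : ∃ C c : ℝ, 0 < c ∧ ∃ b0 : ℕ, ∀ b ≥ b0,
    (∀ a : ℕ, 1 ≤ a → a < b → ∃ S : Finset ℕ, (∀ n ∈ S, 2 ≤ n) ∧
      (S.card : ℝ) ≤ C * Real.log (Real.log b) ∧ ∑ n ∈ S, 1 / (n : ℚ) = (a : ℚ) / b) ∧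
    (∀ S : Finset ℕ, (∀ n ∈ S, 2 ≤ n) →
      ∑ n ∈ S, 1 / (n : ℚ) = ((b - 1 : ℕ) : ℚ) / b →
        c * Real.log (Real.log b) ≤ S.card) := by
  obtain ⟨s0, hs0⟩ := exists_big
  refine ⟨12000, 1 / 3, by norm_num, 2 ^ 2 ^ (max s0 4), fun b hb => ⟨fun a ha1 hab => ?_, ?_⟩⟩
  · set t := max s0 4
    have hL : 2 ^ t ≤ Nat.log 2 b := Nat.le_log_of_pow_le one_lt_two hb
    set L := Nat.log 2 b + 1 with hLdef
    set s := Nat.log 2 L + 1 with hs
    have hts : t ≤ Nat.log 2 L := Nat.le_log_of_pow_le one_lt_two (by omega)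
    have hbig : Big s := hs0 s (by omega)
    have hq : (a : ℚ) / b < 1 := by
      rw [div_lt_one (Nat.cast_pos.2 (by omega))]; exact_mod_cast hab
    obtain ⟨S, S1, S2, S3⟩ := (upper_s a b hab hbig).distinct hq
    refine ⟨S, S1, ?_, S3⟩
    have hb16 : (16 : ℕ) ≤ Nat.log 2 b :=
      le_trans (by norm_num : 16 ≤ 2 ^ 4) (le_trans (Nat.pow_le_pow_right two_pos (le_max_right _ _)) hL)
    have hb0 : b ≠ 0 := by omega
    have hlogb : ((Nat.log 2 b : ℕ) : ℝ) * Real.log 2 ≤ Real.log b := by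
      rw [← Real.log_pow]
      exact Real.log_le_log (by positivity) (by exact_mod_cast Nat.pow_log_le_self 2 hb0)
    have hl2 : (0.69 : ℝ) < Real.log 2 := by have := Real.log_two_gt_d9; linarith
    have h16 : (16 : ℝ) ≤ (Nat.log 2 b : ℕ) := by exact_mod_cast hb16
    have hlb9 : (9 : ℝ) ≤ Real.log b := by nlinarith
    have hLle : (L : ℝ) ≤ 3 * Real.log b := by rw [hLdef]; push_cast; nlinarith
    have hsl : ((Nat.log 2 L : ℕ) : ℝ) * Real.log 2 ≤ Real.log (3 * Real.log b) := by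
      rw [← Real.log_pow]
      refine Real.log_le_log (by positivity) (le_trans ?_ hLle)
      exact_mod_cast Nat.pow_log_le_self 2 (by omega : L ≠ 0)
    rw [Real.log_mul (by norm_num) (by linarith)] at hsl
    have hl3 : Real.log 3 ≤ Real.log (Real.log b) := Real.log_le_log (by norm_num) (by linarith)
    have hll1 : 1 ≤ Real.log (Real.log b) := by
      rw [Real.le_log_iff_exp_le (by linarith)]
      linarith [Real.exp_one_lt_three]
    have hs4 : (s : ℝ) ≤ 4 * Real.log (Real.log b) := by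
      rw [hs]; push_cast
      nlinarith [Nat.cast_nonneg (α := ℝ) (Nat.log 2 L)]
    calc (S.card : ℝ) ≤ ((3000 * s : ℕ) : ℝ) := by exact_mod_cast S2
      _ ≤ _ := by push_cast; linarith
  · intro S hS hsum
    refine loglog_lower b ?_ S hS hsum
    exact le_trans (Nat.le_self_pow (by positivity) 2) hb

end Vale.Agent.P012
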