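import Mathlib

namespace Vale.Agent.P012

/-- `q` is a sum of at most `k` unit fractions, repetitions allowed. -/
def Rep (k : ℕ) (q : ℚ) : Prop :=
  ∃ m : Multiset ℕ, Multiset.card m ≤ k ∧ (∀ n ∈ m, 0 < n) ∧
    (m.map fun n : ℕ => 1 / (n : ℚ)).sum = q

lemma Rep.zero (k : ℕ) : Rep k 0 := ⟨0, by simp, by simp, by simp⟩

lemma Rep.mono {k k' : ℕ} {q : ℚ} (h : Rep k q) (hk : k ≤ k') : Rep k' q := by
  obtain ⟨m, h1, h2, h3⟩ := h
  exact ⟨m, h1.trans hk, h2, h3⟩

lemma Rep.add {k k' : ℕ} {q q' : ℚ} (h : Rep k q) (h' : Rep k' q') : Rep (k + k') (q + q') := by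
  obtain ⟨m, h1, h2, h3⟩ := h
  obtain ⟨m', h1', h2', h3'⟩ := h'
  refine ⟨m + m', ?_, ?_, ?_⟩
  · rw [Multiset.card_add]; omega
  · intro n hn
    rcases Multiset.mem_add.1 hn with hn | hn
    exacts [h2 n hn, h2' n hn]
  · rw [Multiset.map_add, Multiset.sum_add, h3, h3']

lemma Rep.unit {n : ℕ} (hn : 0 < n) : Rep 1 (1 / (n : ℚ)) :=
  ⟨{n}, by simp, by simp [hn], by simp⟩

lemma Rep.sum_range (c : ℕ) (T : ℕ) (f : ℕ → ℚ) (h : ∀ i < T, Rep c (f i)) :
    Rep (c * T) (∑ i ∈ Finset.range T, f i) := by
  induction T with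
  | zero => simpa using Rep.zero _
  | succ T ih =>
    rw [Finset.sum_range_succ, Nat.mul_succ]
    exact (ih fun i hi => h i (by omega)).add (h T (by omega))

lemma recip_sum_nonneg (m : Multiset ℕ) : 0 ≤ (m.map fun n : ℕ => 1 / (n : ℚ)).sum :=
  Multiset.sum_nonneg fun x hx => by
    obtain ⟨n, -, rfl⟩ := Multiset.mem_map.1 hx
    positivity

lemma recip_le_of_mem {m : Multiset ℕ} {n : ℕ} (hn : n ∈ m) :
    1 / (n : ℚ) ≤ (m.map fun n : ℕ => 1 / (n : ℚ)).sum := by
  conv_rhs => rw [← Multiset.cons_erase hn, Multiset.map_cons, Multiset.sum_cons]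
  exact le_add_of_nonneg_right (recip_sum_nonneg _)

/-- Repetitions can be removed without using more terms. -/
lemma Rep.distinct : ∀ {k : ℕ} {q : ℚ}, Rep k q → q < 1 →
    ∃ S : Finset ℕ, (∀ n ∈ S, 2 ≤ n) ∧ S.card ≤ k ∧ ∑ n ∈ S, 1 / (n : ℚ) = q := by
  classical
  intro k
  induction k with
  | zero =>
    intro q h _
    obtain ⟨m, h1, -, h3⟩ := h
    rw [Nat.le_zero, Multiset.card_eq_zero] at h1
    subst h1
    exact ⟨∅, by simp, by simp, by simpa using h3⟩
  | succ k ih =>
    intro q h hq
    obtain ⟨m, h1, h2, h3⟩ := h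
    by_cases hm : m = 0
    · subst hm; exact ⟨∅, by simp, by simp, by simpa using h3⟩
    let P : ℕ → Prop := fun x => ∃ w : Multiset ℕ, Multiset.card w ≤ k + 1 ∧
      (∀ n ∈ w, 0 < n) ∧ (w.map fun n : ℕ => 1 / (n : ℚ)).sum = q ∧ x ∈ w
    have hex : ∃ x, P x := by
      obtain ⟨x, hx⟩ := Multiset.exists_mem_of_ne_zero hm
      exact ⟨x, m, h1, h2, h3, hx⟩
    obtain ⟨w, w1, w2, w3, w4⟩ := Nat.find_spec hex
    have hmin : ∀ x, P x → Nat.find hex ≤ x := fun x hx => Nat.find_min' hex hx
    set x := Nat.find hex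
    have hx0 : 0 < x := w2 x w4
    have hsplit : 1 / (x : ℚ) + ((w.erase x).map fun n : ℕ => 1 / (n : ℚ)).sum = q := by
      rw [← w3]
      conv_rhs => rw [← Multiset.cons_erase w4, Multiset.map_cons, Multiset.sum_cons]
    have hrest : Rep k (q - 1 / (x : ℚ)) := by
      refine ⟨w.erase x, ?_, fun n hn => w2 n (Multiset.mem_of_mem_erase hn), by linarith⟩
      rw [Multiset.card_erase_of_mem w4, Nat.pred_eq_sub_one]; omega
    have hxq : (0 : ℚ) < 1 / (x : ℚ) := by positivity
    obtain ⟨S, S1, S2, S3⟩ := ih hrest (by linarith)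
    have hx2 : 2 ≤ x := by
      by_contra hc
      have : x = 1 := by omega
      have := recip_le_of_mem w4
      rw [w3] at this
      simp [*] at this
      linarith
    have hnot : x ∉ S := by
      intro hxS
      -- two copies of `x` could be traded for a smaller first denominator
      have hwit : ∀ (extra : Multiset ℕ) (y : ℕ), y ∈ extra → Multiset.card extra ≤ 2 →
          (∀ n ∈ extra, 0 < n) → (extra.map fun n : ℕ => 1 / (n : ℚ)).sum = 2 / (x : ℚ) → P y := by
        intro extra y hy hc hp hs
        refine ⟨extra + (S.erase x).1, ?_, ?_, ?_, Multiset.mem_add.2 (.inl hy)⟩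
        · rw [Multiset.card_add, Finset.card_val, Finset.card_erase_of_mem hxS]
          have : 0 < S.card := Finset.card_pos.2 ⟨x, hxS⟩
          omega
        · intro n hn
          rcases Multiset.mem_add.1 hn with hn | hn
          · exact hp n hn
          · have := S1 n (Finset.mem_of_mem_erase hn); omega
        · rw [Multiset.map_add, Multiset.sum_add, hs]
          have : (((S.erase x).1).map fun n : ℕ => 1 / (n : ℚ)).sum
              = ∑ n ∈ S.erase x, 1 / (n : ℚ) := rfl
          rw [this, Finset.sum_erase_eq_sub hxS, S3]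
          ring
      rcases Nat.even_or_odd x with ⟨t, ht⟩ | ⟨t, ht⟩
      · have := hmin t (hwit {t} t (by simp) (by simp) (by simp; omega) (by
          have : (t : ℚ) ≠ 0 := by norm_cast; omega
          rw [ht]; push_cast
          simp only [Multiset.map_singleton, Multiset.sum_singleton]
          field_simp; ring))
        omega
      · have := hmin (t + 1) (hwit {t + 1, x * (t + 1)} (t + 1) (by simp) (by simp) (by
          intro n hn
          simp only [Multiset.insert_eq_cons, Multiset.mem_cons, Multiset.mem_singleton] at hn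
          rcases hn with rfl | rfl
          · omega
          · positivity) (by
          rw [ht]
          have h1 : (t : ℚ) + 1 ≠ 0 := by positivity
          have h2 : 2 * (t : ℚ) + 1 ≠ 0 := by positivity
          simp only [Multiset.insert_eq_cons, Multiset.map_cons, Multiset.map_singleton,
            Multiset.sum_cons, Multiset.sum_singleton]
          push_cast
          field_simp
          ring))
        omega
    refine ⟨insert x S, ?_, ?_, ?_⟩
    · intro n hn
      rcases Finset.mem_insert.1 hn with rfl | hn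
      exacts [hx2, S1 n hn]
    · rw [Finset.card_insert_of_notMem hnot]; omega
    · rw [Finset.sum_insert hnot, S3]; ring

/-- Fractions that are approximated from below by `k` unit fractions have a doubly
exponentially bounded gap. -/
lemma gap (K : ℕ) : ∀ k ≤ K, ∀ (p q : ℕ) (m : Multiset ℕ), 0 < p → 0 < q →
    Multiset.card m ≤ k → (∀ n ∈ m, 0 < n) →
    (m.map fun n : ℕ => 1 / (n : ℚ)).sum < (p : ℚ) / q →
    1 / (((2 * (K + 1) * q) ^ 2 ^ k : ℕ) : ℚ) ≤ (p : ℚ) / q - (m.map fun n : ℕ => 1 / (n : ℚ)).sum := by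
  intro k
  induction k with
  | zero =>
    intro _ p q m hp hq hm _ _
    rw [Nat.le_zero, Multiset.card_eq_zero] at hm
    subst hm
    simp only [Multiset.map_zero, Multiset.sum_zero, sub_zero, pow_zero, pow_one]
    rw [div_le_div_iff₀ (by positivity) (by positivity)]
    have h1 : 1 ≤ p * (2 * (K + 1)) := Nat.mul_pos hp (by omega)
    have : q ≤ p * (2 * (K + 1) * q) := by nlinarith
    have := (Nat.cast_le (α := ℚ)).2 this
    push_cast at this ⊢
    linarith
  | succ k ih =>
    intro hK p q m hp hq hm hpos hlt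
    set σ := (m.map fun n : ℕ => 1 / (n : ℚ)).sum with hσ
    have hB : (1:ℕ) ≤ 2 * (K + 1) * q := by nlinarith
    by_cases hsmall : 2 * σ ≤ (p : ℚ) / q
    · have h1 : 1 / ((2 * q : ℕ) : ℚ) ≤ (p : ℚ) / q - σ := by
        have : (1 : ℚ) / q ≤ (p : ℚ) / q := by
          gcongr; exact_mod_cast hp
        push_cast
        rw [one_div, mul_inv, ← one_div (q : ℚ)]
        linarith
      refine le_trans ?_ h1
      apply one_div_le_one_div_of_le (by positivity)
      norm_cast
      calc 2 * q ≤ 2 * (K + 1) * q := by nlinarith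
        _ ≤ _ := Nat.le_self_pow (by positivity) _
    · rw [not_le] at hsmall
      have hex : ∃ n ∈ m, n ≤ 2 * (k + 1) * q := by
        by_contra hall
        simp only [not_exists, not_and, not_le] at hall
        have hb : σ ≤ (Multiset.card m : ℚ) * (1 / ((2 * (k + 1) * q : ℕ) : ℚ)) := by
          have := Multiset.sum_le_card_nsmul (m.map fun n : ℕ => 1 / (n : ℚ))
            (1 / ((2 * (k + 1) * q : ℕ) : ℚ)) (by
              intro x hx
              obtain ⟨n, hn, rfl⟩ := Multiset.mem_map.1 hx
              exact one_div_le_one_div_of_le (by positivity) (by exact_mod_cast (hall n hn).le))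
          rwa [Multiset.card_map, nsmul_eq_mul] at this
        have h2 : (Multiset.card m : ℚ) * (1 / ((2 * (k + 1) * q : ℕ) : ℚ)) ≤ 1 / (2 * (q : ℚ)) := by
          have hc : (Multiset.card m : ℚ) ≤ (k : ℚ) + 1 := by exact_mod_cast hm
          calc _ ≤ ((k : ℚ) + 1) * (1 / ((2 * (k + 1) * q : ℕ) : ℚ)) := by gcongr
            _ = _ := by push_cast; field_simp
        have h3 : (1 : ℚ) / q ≤ (p : ℚ) / q := by gcongr; exact_mod_cast hp
        have h4 : (2 : ℚ) * (1 / (2 * (q : ℚ))) = 1 / q := by field_simp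
        linarith
      obtain ⟨n, hn, hnb⟩ := hex
      have hn0 := hpos n hn
      set r := ((m.erase n).map fun n : ℕ => 1 / (n : ℚ)).sum with hr
      have hr0 : 0 ≤ r := recip_sum_nonneg _
      have hsum : σ = 1 / (n : ℚ) + r := by
        rw [hσ, hr]
        conv_lhs => rw [← Multiset.cons_erase hn, Multiset.map_cons, Multiset.sum_cons]
      have hgt : q < p * n := by
        have h5 : (1 : ℚ) / n < (p : ℚ) / q := by linarith
        rw [div_lt_div_iff₀ (by positivity) (by positivity), one_mul] at h5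
        exact_mod_cast h5
      have heq : ((p * n - q : ℕ) : ℚ) / ((q * n : ℕ) : ℚ) = (p : ℚ) / q - 1 / (n : ℚ) := by
        rw [Nat.cast_sub hgt.le]
        push_cast
        field_simp
      have := ih (by omega) (p * n - q) (q * n) (m.erase n) (by omega) (Nat.mul_pos hq hn0) (by
        rw [Multiset.card_erase_of_mem hn, Nat.pred_eq_sub_one]; omega)
        (fun x hx => hpos x (Multiset.mem_of_mem_erase hx)) (by rw [← hr, heq]; linarith)
      rw [← hr, heq] at this
      refine le_trans ?_ (this.trans (le_of_eq (by rw [hsum]; ring)))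
      apply one_div_le_one_div_of_le
      · have : 0 < 2 * (K + 1) * (q * n) := by positivity
        positivity
      norm_cast
      calc (2 * (K + 1) * (q * n)) ^ 2 ^ k
          ≤ ((2 * (K + 1) * q) ^ 2) ^ 2 ^ k := by
            refine Nat.pow_le_pow_left ?_ _
            have : n ≤ 2 * (K + 1) * q := hnb.trans (by gcongr; omega)
            calc 2 * (K + 1) * (q * n) = (2 * (K + 1) * q) * n := by ring
              _ ≤ (2 * (K + 1) * q) * (2 * (K + 1) * q) := by gcongr
              _ = _ := by ring
        _ = _ := by rw [← pow_mul, ← pow_succ']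

end Vale.Agent.P012
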